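import Vale.Agent.P073Y.An2.Apex
import Vale.Agent.P073Y.Top.Defs

/-!
# The choice of the centres of the holes
-/

open Set Metric Topology Filter MeasureTheory
open scoped ENNReal NNReal

namespace P073.An2

open P073 P073.Cone P073.Top

/-- the truncated kernel -/
noncomputable def tker (p : ℝ) (N : ℕ) (t ϑ : ℝ) (v : E3) : ℝ≥0∞ :=
  {v | ‖nrm N t v‖ ≤ ϑ}.indicator (fun v => (‖nrm N t v‖ₑ)⁻¹ ^ p) v

theorem continuous_nrm (N : ℕ) (t : ℝ) : Continuous (nrm N t) := by
  refine continuous_pi fun i => ?_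
  fin_cases i <;> simp only [nrm] <;> simp <;> fun_prop

theorem measurable_tker (p : ℝ) (N : ℕ) (t ϑ : ℝ) : Measurable (tker p N t ϑ) :=
  (((continuous_nrm N t).measurable.enorm.inv).pow_const p).indicator
    (isClosed_le (continuous_nrm N t).norm continuous_const).measurableSet

theorem lintegral_tker {p : ℝ} (hp : 0 ≤ p) {N : ℕ} {t ϑ : ℝ} (hN : 1 ≤ N) (ht : 0 < t)
    (hϑ : 0 < ϑ) : ∫⁻ v, tker p N t ϑ v ≤
      ENNReal.ofReal (2 * N ^ 2) * ENNReal.ofReal (t * ϑ ^ (3 - p)) * Cav 2 p := by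
  have hN' : (0:ℝ) < N := by exact_mod_cast hN
  let D : E3 := ![N * ϑ, N * ϑ, 2 * t * ϑ]
  have hd : (Matrix.diagonal D).det = 2 * N ^ 2 * (t * ϑ ^ 3) := by
    rw [Matrix.det_diagonal, Fin.prod_univ_three]; simp [D]; ring
  have hl : ∀ η, nrm N t (Matrix.toLin' (Matrix.diagonal D) η) = (2 * ϑ) • η := fun η => by
    funext i
    fin_cases i <;> simp [nrm, D, Matrix.mulVec_diagonal] <;> field_simp
  have h1 : ∀ η, tker p N t ϑ (Matrix.toLin' (Matrix.diagonal D) η) ≤
      ENNReal.ofReal (ϑ ^ (-p)) * (closedBall 0 (1 / 2)).indicator (fun c => ker p c 0) η := by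
    intro η
    unfold tker
    by_cases h : ‖nrm N t (Matrix.toLin' (Matrix.diagonal D) η)‖ ≤ ϑ
    swap
    · rw [indicator_of_notMem (by exact h)]; exact bot_le
    rw [indicator_of_mem (by exact h)]
    rw [hl, norm_smul_of_nonneg (by positivity)] at h
    rw [indicator_of_mem (mem_closedBall_zero_iff.2 (by nlinarith)), hl, ker, zero_sub, norm_neg,
      Real.rpow_neg hϑ.le, ← Real.inv_rpow hϑ.le, ← ENNReal.ofReal_rpow_of_pos (inv_pos.2 hϑ),
      ← ENNReal.mul_rpow_of_nonneg _ _ hp, ENNReal.ofReal_inv_of_pos hϑ,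
      ← ENNReal.mul_inv (Or.inl (ENNReal.ofReal_pos.2 hϑ).ne') (Or.inl ENNReal.ofReal_ne_top),
      ← ENNReal.ofReal_mul hϑ.le, ← ofReal_norm, norm_smul_of_nonneg (by positivity)]
    refine ENNReal.rpow_le_rpow (ENNReal.inv_le_inv.2 (ENNReal.ofReal_le_ofReal ?_)) hp
    nlinarith [norm_nonneg η]
  rw [← Real.smul_map_diagonal_volume_pi (D := D) (by rw [hd]; positivity), lintegral_smul_measure,
    lintegral_map (measurable_tker p N t ϑ) (LinearMap.continuous_on_pi _).measurable, smul_eq_mul,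
    hd, abs_of_pos (by positivity)]
  refine (mul_le_mul_right (lintegral_mono h1) _).trans ?_
  rw [lintegral_const_mul' _ _ ENNReal.ofReal_ne_top, lintegral_indicator measurableSet_closedBall,
    ← mul_assoc, ← ENNReal.ofReal_mul (by positivity), ← ENNReal.ofReal_mul (by positivity)]
  refine mul_le_mul' (le_of_eq ?_) (lintegral_ker_le (k := 2) hp le_rfl 0)
  rw [sub_eq_add_neg, Real.rpow_add hϑ, Real.rpow_ofNat]
  ring_nf

theorem volume_mid (N : ℕ) (z : Fin 3 → ℤ) : volume (mid N z) = ENNReal.ofReal (N ^ 2 / 12) := by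
  rw [mid, Real.volume_Icc_pi, Fin.prod_univ_three, ← ENNReal.ofReal_mul, ← ENNReal.ofReal_mul]
  · simp [wd]; ring_nf
  · simp [wd]; nlinarith
  · simp [wd]; nlinarith

/-- the choice of a centre -/
theorem choose {p : ℝ} (hp : 0 ≤ p) (hp3 : p < 3) : CHOOSE p := by
  have hC : 48 * Cav 2 p ≠ ⊤ :=
    ENNReal.mul_ne_top ENNReal.ofNat_ne_top (Cav_ne_top (by push_cast; linarith))
  refine ⟨(48 * Cav 2 p).toNNReal, fun N t z ι _ μ ϑ X hN ht _ hϑ hX => ?_⟩
  have hN' : (0:ℝ) < N := by exact_mod_cast hN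
  rw [ENNReal.coe_toNNReal hC]
  classical
  set ν : ι → Measure E3 := fun i => if μ i univ = ⊤ then 0 else μ i with hν
  have hfin : ∀ i, IsFiniteMeasure (ν i) := by
    intro i
    simp only [hν]
    split_ifs with h
    · infer_instance
    · exact ⟨lt_top_iff_ne_top.2 h⟩
  set G : Set E3 := mid N z \ toMeasurable volume (X ∩ mid N z) with hG
  have hGm : MeasurableSet G := measurableSet_Icc.diff (measurableSet_toMeasurable _ _)
  have hG1 : volume G ≠ ⊤ := ne_top_of_le_ne_top (by rw [volume_mid]; exact ENNReal.ofReal_ne_top)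
    (measure_mono (sdiff_subset : G ⊆ mid N z))
  have h24 : ENNReal.ofReal (N ^ 2 / 12) = 2 * ENNReal.ofReal (N ^ 2 / 24) := by
    rw [← ENNReal.ofReal_ofNat 2, ← ENNReal.ofReal_mul zero_le_two]; ring_nf
  have hG2 : ENNReal.ofReal (N ^ 2 / 24) ≤ volume G := by
    refine le_trans ?_ le_measure_sdiff
    rw [volume_mid, h24] at hX
    rw [volume_mid, measure_toMeasurable, h24, two_mul]
    refine le_trans (le_of_eq ?_) (tsub_le_tsub_left
      ((ENNReal.mul_le_mul_iff_right two_ne_zero ENNReal.ofNat_ne_top).1 hX) _)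
    exact (ENNReal.add_sub_cancel_right ENNReal.ofReal_ne_top).symm
  have hG0 : volume G ≠ 0 := (lt_of_lt_of_le (ENNReal.ofReal_pos.2 (by positivity)) hG2).ne'
  have hG3 : (volume G)⁻¹ * ENNReal.ofReal (2 * N ^ 2) ≤ 48 := by
    refine (mul_le_mul_left (ENNReal.inv_le_inv.2 hG2) _).trans (le_of_eq ?_)
    rw [← ENNReal.ofReal_inv_of_pos (by positivity), ← ENNReal.ofReal_mul (by positivity),
      ← ENNReal.ofReal_ofNat 48]
    congr 1
    field_simp
    norm_num
  have : IsProbabilityMeasure ((volume G)⁻¹ • volume.restrict G) := ⟨by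
    rw [Measure.smul_apply, Measure.restrict_apply_univ, smul_eq_mul,
      ENNReal.inv_mul_cancel hG0 hG1]⟩
  have hm : ∀ i, Measurable fun w : E3 × E3 => tker p N t (ϑ i) (w.2 - w.1) := fun i =>
    (measurable_tker p N t (ϑ i)).comp (measurable_snd.sub measurable_fst)
  obtain ⟨c, hc, hle⟩ := exists_forall_le_card_mul ((volume G)⁻¹ • volume.restrict G)
    (F := fun i c => ∫⁻ y, tker p N t (ϑ i) (y - c) ∂(ν i))
    (fun i => (hm i).lintegral_prod_right'.aemeasurable)
    (N := Gᶜ) (by rw [Measure.smul_apply, Measure.restrict_apply hGm.compl]; simp)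
  rw [notMem_compl_iff] at hc
  refine ⟨c, hc.1, fun h => hc.2 (subset_toMeasurable _ _ ⟨h, hc.1⟩), fun i => ?_⟩
  by_cases h : μ i univ = ⊤
  · have : Nonempty ι := ⟨i⟩
    have h1 := (hϑ i).1
    rw [h, ENNReal.mul_top (mul_ne_zero (mul_ne_zero (by exact_mod_cast Fintype.card_ne_zero)
      (mul_ne_zero (by norm_num) (Cav_ne_zero p))) (ENNReal.ofReal_pos.2 (by positivity)).ne')]
    exact le_top
  have e : ν i = μ i := if_neg h
  have h1 := hle i
  rw [lintegral_smul_measure, smul_eq_mul] at h1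
  have h2 : ∫⁻ c in G, ∫⁻ y, tker p N t (ϑ i) (y - c) ∂(ν i) ≤ ENNReal.ofReal (2 * N ^ 2) *
      ENNReal.ofReal (t * ϑ i ^ (3 - p)) * Cav 2 p * ν i univ := by
    refine (setLIntegral_le_lintegral _ _).trans ?_
    rw [lintegral_lintegral_swap (hm i).aemeasurable, ← lintegral_const]
    refine lintegral_mono fun y => ?_
    exact (lintegral_sub_left_eq_self (tker p N t (ϑ i)) y).trans_le
      (lintegral_tker hp hN ht (hϑ i).1)
  rw [← lintegral_indicator (isClosed_le (by have := continuous_nrm N t; fun_prop)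
    continuous_const).measurableSet, ← e]
  refine (h1.trans (mul_le_mul_right (mul_le_mul_right h2 _) _)).trans ?_
  calc _ = Fintype.card ι * (((volume G)⁻¹ * ENNReal.ofReal (2 * N ^ 2)) * Cav 2 p) *
        ENNReal.ofReal (t * ϑ i ^ (3 - p)) * ν i univ := by ring
    _ ≤ _ := by gcongr

end P073.An2
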