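import Vale.Agent.P073Y.An2.Hole1
import Vale.Agent.P073Y.Top.Defs
import Vale.Agent.P073Z.ACC.Tool

/-!
# Opening the holes in a finite family of lattice boxes
-/

open Set Metric Topology Filter MeasureTheory
open scoped ENNReal NNReal

namespace P073.An2

open P073 P073.Cone P073.Top

/-- the mean value inequality for a pointwise Lipschitz bound -/
theorem edist_le_of_ev {E T : Type} [NormedAddCommGroup E] [NormedSpace ℝ E]
    [PseudoEMetricSpace T] {f : E → T} {X : Set E} (hX : Convex ℝ X) (hf : ContinuousOn f X)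
    {L : ℝ≥0∞} (hL : L ≠ ⊤) (h : ∀ x ∈ X, ∀ᶠ y in 𝓝[X] x, edist (f y) (f x) ≤ L * edist y x)
    {x y : E} (hx : x ∈ X) (hy : y ∈ X) : edist (f y) (f x) ≤ L * edist y x := by
  let γ : ℝ → E := AffineMap.lineMap x y
  have hγ : Continuous γ := AffineMap.lineMap_continuous
  have hm : MapsTo γ (Icc 0 1) X := fun s hs => hX.lineMap_mem hx hy hs
  have key : Icc (0:ℝ) 1 ⊆ {s | edist (f (γ s)) (f x) ≤ L * edist (γ s) x} := by
    refine IsClosed.Icc_subset_of_forall_mem_nhdsWithin ?_ (by simp [γ]) fun s hs => ?_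
    · rw [inter_comm]
      exact isClosed_Icc.isClosed_le (continuous_edist.comp_continuousOn
        ((hf.comp hγ.continuousOn hm).prodMk continuousOn_const))
        ((ENNReal.continuous_const_mul hL).comp (hγ.edist continuous_const)).continuousOn
    · have h1 : Tendsto γ (𝓝[>] s) (𝓝[X] (γ s)) :=
        tendsto_nhdsWithin_iff.2 ⟨hγ.continuousAt.tendsto.mono_left nhdsWithin_le_nhds, by
          filter_upwards [Ioc_mem_nhdsGT hs.2.2] with u hu
          exact hm ⟨hs.2.1.trans hu.1.le, hu.2⟩⟩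
      filter_upwards [h1.eventually (h _ (hm (Ico_subset_Icc_self hs.2))), self_mem_nhdsWithin]
        with u hu hsu
      have e : edist (γ u) x = edist (γ u) (γ s) + edist (γ s) x := by
        have hsu' : s < u := hsu
        simp only [γ, edist_dist]
        rw [← ENNReal.ofReal_add dist_nonneg dist_nonneg, dist_lineMap_lineMap, dist_lineMap_left,
          dist_lineMap_left, Real.dist_eq, Real.norm_of_nonneg hs.2.1,
          Real.norm_of_nonneg (hs.2.1.trans hsu'.le), abs_of_pos (sub_pos.2 hsu')]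
        congr 1
        ring
      show edist (f (γ u)) (f x) ≤ L * edist (γ u) x
      rw [e, mul_add]
      exact (edist_triangle _ (f (γ s)) _).trans (add_le_add hu hs.1)
  simpa [γ] using key (right_mem_Icc.2 zero_le_one)

/-- comparison of two maps from a pointwise bound -/
theorem lipc_en_le {T T' : Type} [PseudoEMetricSpace T] [PseudoEMetricSpace T'] {f : E3 → T}
    {g : E3 → T'} {X : Set E3} (hX : Convex ℝ X) (hm : MeasurableSet X) (hf : ContinuousOn f X)
    {K : ℝ≥0∞} (h0 : K ≠ 0) (hK : K ≠ ⊤) {p : ℝ} (hp : 0 ≤ p) (d : ℕ)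
    (h : ∀ x ∈ X, ∀ᶠ y in 𝓝[X] x, edist (f y) (f x) ≤ K * edist (g y) (g x)) :
    lipc f X ≤ K * lipc g X ∧ En d p f X ≤ K ^ p * En d p g X := by
  constructor
  · by_cases hl : lipc g X = ⊤
    · rw [hl, ENNReal.mul_top h0]; exact le_top
    refine iSup₂_le fun x hx => iSup₂_le fun y hy => ENNReal.div_le_of_le_mul
      (edist_le_of_ev hX hf (ENNReal.mul_ne_top hK hl) (fun u hu => ?_) hy hx)
    filter_upwards [h u hu, self_mem_nhdsWithin] with w h1 hw
    rw [mul_assoc]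
    refine h1.trans (mul_le_mul_right ?_ _)
    by_cases hwu : w = u
    · simp [hwu]
    · exact (ENNReal.div_le_iff (by simpa using hwu) (edist_ne_top _ _)).1
        (le_iSup₂_of_le w hw (le_iSup₂_of_le u hu le_rfl))
  · unfold En
    rw [← lintegral_const_mul' _ _ (ENNReal.rpow_ne_top_of_nonneg hp hK)]
    refine setLIntegral_mono' hm fun x hx => ?_
    rw [← ENNReal.mul_rpow_of_nonneg _ _ hp, ← add_zero (K * lipAt g X x)]
    refine ENNReal.rpow_le_rpow (le_of_forall_gt_aff h0 hK fun c hc => lipAt_le ?_) hp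
    filter_upwards [ev_of_lipAt_lt hc, h x hx] with y h1 h2
    rw [add_zero, mul_assoc]
    exact h2.trans (mul_le_mul_right h1 _)

/-- the corner of a lattice box -/
def crn (N : ℕ) (z : Fin 3 → ℤ) : E3 := fun i => z i * wd N i

section lattice

variable {N : ℕ} {t : ℝ} {z z' : Fin 3 → ℤ}

theorem Dn_eq (N : ℕ) (t : ℝ) (v : E3) : Dn N t v = nrm N t v := by
  funext i
  fin_cases i <;> simp [Dn, nrm, hs] <;> ring

theorem isOpen_obox (N : ℝ) (lo : E3) : IsOpen (obox N lo) := by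
  simp only [obox, ofPred_forall]
  exact isOpen_iInter_of_finite fun i =>
    (isOpen_lt continuous_const (continuous_apply i)).inter
      (isOpen_lt (continuous_apply i) continuous_const)

theorem mem_lbox {κ : ℝ} {y : E3} :
    y ∈ lbox N κ z ↔ ∀ i, crn N z i + κ ≤ y i ∧ y i ≤ crn N z i + sz N i - κ := by
  simp only [lbox, mem_Icc, Pi.le_def, ← forall_and, crn, add_mul, one_mul]
  rfl

theorem obox_subset : obox N (crn N z) ⊆ lbox N 0 z := fun y hy =>
  mem_lbox.2 fun i => ⟨by linarith [(hy i).1], by linarith [(hy i).2]⟩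

theorem eq_of_mem {y : E3} (h : y ∈ obox N (crn N z)) (h' : y ∈ lbox N 0 z') : z = z' := by
  funext i
  have h1 := h i
  have h2 := mem_lbox.1 h' i
  have e : sz N i = wd N i := rfl
  simp only [crn, e, add_zero, sub_zero] at h1 h2
  have h0 : 0 < wd N i := by linarith [h1.1, h1.2]
  have a1 : (z i : ℝ) < z' i + 1 := lt_of_mul_lt_mul_right (by linarith [h1.1, h2.2]) h0.le
  have a2 : (z' i : ℝ) < z i + 1 := lt_of_mul_lt_mul_right (by linarith [h1.2, h2.1]) h0.le
  have b1 : z i < z' i + 1 := by exact_mod_cast a1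
  have b2 : z' i < z i + 1 := by exact_mod_cast a2
  omega

theorem ctr_of_mid {c : E3} (h : c ∈ mid N z) : c ∈ ctr N (crn N z) := by
  have a0 := h.1 0; have a1 := h.1 1; have a2 := h.1 2
  have b0 := h.2 0; have b1 := h.2 1; have b2 := h.2 2
  simp [wd] at a0 a1 a2 b0 b1 b2
  simp only [ctr, crn, wd, mem_ofPred_eq, abs_le]
  simp
  refine ⟨⟨?_, ?_⟩, ⟨?_, ?_⟩, ?_, ?_⟩ <;> linarith

theorem vst_sub (N : ℕ) (t : ℝ) (y y' : E3) : vst N t y - vst N t y' = vst N t (y - y') := by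
  funext i
  fin_cases i <;> simp [vst]
  ring

theorem norm_le_vst (hN : 1 ≤ N) (ht : 0 < t) (ht' : t ≤ 1 / 4) (v : E3) :
    ‖v‖ ≤ ‖vst N t v‖ := by
  have hN' : (1:ℝ) ≤ N := by exact_mod_cast hN
  refine norm_le3 (abs_le_norm (vst N t v) 0) (abs_le_norm (vst N t v) 1)
    (le_trans ?_ (abs_le_norm (vst N t v) 2))
  show _ ≤ |N / t * v 2|
  rw [abs_mul]
  refine le_mul_of_one_le_left (abs_nonneg _) (le_trans ?_ (le_abs_self _))
  rw [one_le_div ht]; linarith

theorem Dn_le_vst (hN : 1 ≤ N) (ht : 0 < t) (v : E3) : N * ‖Dn N t v‖ ≤ 2 * ‖vst N t v‖ := by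
  have hN' : (0:ℝ) < N := by exact_mod_cast hN
  have d0 : |v 0| ≤ _ := abs_le_norm (vst N t v) 0
  have d1 : |v 1| ≤ _ := abs_le_norm (vst N t v) 1
  have d2 : |N / t * v 2| ≤ _ := abs_le_norm (vst N t v) 2
  rw [← norm_smul_of_nonneg hN'.le]
  have e0 : ((N:ℝ) • Dn N t v) 0 = 2 * v 0 := by simp [Dn, hs]; field_simp
  have e1 : ((N:ℝ) • Dn N t v) 1 = 2 * v 1 := by simp [Dn, hs]; field_simp
  have e2 : ((N:ℝ) • Dn N t v) 2 = N / t * v 2 := by simp [Dn, hs]; field_simp
  refine norm_le3 ?_ ?_ ?_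
  · rw [e0, abs_mul, abs_two]; linarith
  · rw [e1, abs_mul, abs_two]; linarith
  · rw [e2]; linarith [norm_nonneg (vst N t v)]

theorem edist_le_vst {A k : ℝ} {u v y y' : E3} (hA : 0 ≤ A) (hk : 0 ≤ k)
    (h : ‖u - v‖ ≤ A * (1 + k) * ‖vst N t (y - y')‖) : edist u v ≤
      ENNReal.ofReal A * (1 + ENNReal.ofReal k) * edist (vst N t y) (vst N t y') := by
  rw [edist_dist, edist_dist, dist_eq_norm, dist_eq_norm, vst_sub, ← ENNReal.ofReal_one,
    ← ENNReal.ofReal_add zero_le_one hk, ← ENNReal.ofReal_mul hA,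
    ← ENNReal.ofReal_mul (by positivity)]
  exact ENNReal.ofReal_le_ofReal h

/-- the pointwise bound for one hole -/
theorem IsHole.ev {κ β : ℝ} {c : E3} {Φ : E3 → E3} (h : IsHole N κ t (β / 2) (crn N z) c Φ)
    (hN : 1 ≤ N) (hκ : 0 < κ) (hκ' : κ ≤ 1) (ht : 0 < t) (ht' : t ≤ 1 / 4) (hβ : 0 < β) (y₀ : E3) :
    ∀ᶠ y in 𝓝 y₀, edist (Φ y) (Φ y₀) ≤ ENNReal.ofReal (320 / κ) * (1 + kern N t z c β y₀) *
      edist (vst N t y) (vst N t y₀) := by
  have hv := norm_le_vst hN ht ht'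
  have k3 : 1 ≤ 3 / κ := by rw [one_le_div hκ]; linarith
  have k4 : 3 / κ ≤ 320 / κ * (1 + 0) := by rw [add_zero, mul_one]; gcongr; norm_num
  have fin : ∀ y, ‖Φ y - Φ y₀‖ ≤ 3 / κ * ‖y - y₀‖ → edist (Φ y) (Φ y₀) ≤
      ENNReal.ofReal (320 / κ) * (1 + kern N t z c β y₀) * edist (vst N t y) (vst N t y₀) :=
    fun y hy => (edist_le_vst (by positivity) le_rfl (hy.trans (mul_le_mul k4 (hv _)
      (norm_nonneg _) (by positivity)))).trans (by gcongr; simp)
  by_cases h1 : y₀ ∈ lbox N 0 z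
  swap
  · filter_upwards [isClosed_Icc.isOpen_compl.mem_nhds h1] with y hy
    refine fin y ?_
    rw [h.out y fun h => hy (obox_subset h), h.out y₀ fun h => h1 (obox_subset h)]
    exact le_mul_of_one_le_left (norm_nonneg _) k3
  by_cases h2 : |y₀ 2 - c 2| ≤ t
  swap
  · rcases lt_abs.1 (not_le.1 h2) with h3 | h3
    · filter_upwards [(continuous_apply 2).continuousAt.eventually
        (lt_mem_nhds (by linarith : c 2 + t < y₀ 2))] with y hy
      exact fin y (h.off y y₀ (Or.inr ⟨le_of_lt hy, by linarith⟩))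
    · filter_upwards [(continuous_apply 2).continuousAt.eventually
        (gt_mem_nhds (by linarith : y₀ 2 < c 2 - t))] with y hy
      exact fin y (h.off y y₀ (Or.inl ⟨le_of_lt hy, by linarith⟩))
  have hc : Continuous fun y : E3 => ‖Dn N t (y - c)‖ := by unfold Dn; fun_prop
  rw [kern, if_pos ⟨h1, h2⟩, ← Dn_eq]
  have n0 := norm_nonneg (Dn N t (y₀ - c))
  have h3 : ∀ᶠ y in 𝓝 y₀, ‖Dn N t (y₀ - c)‖ / 2 ≤ ‖Dn N t (y - c)‖ := by
    rcases n0.eq_or_lt with h4 | h4
    · exact Eventually.of_forall fun y => by rw [← h4, zero_div]; exact norm_nonneg _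
    · exact (hc.continuousAt.eventually (lt_mem_nhds (half_lt_self h4))).mono fun y => le_of_lt
  filter_upwards [h3] with y hy
  have h5 := h.two (min 1 (‖Dn N t (y₀ - c)‖ / 2)) y y₀ (min_le_left _ _)
    ((min_le_right _ _).trans hy) ((min_le_right _ _).trans (half_le_self n0))
  generalize ‖Dn N t (y₀ - c)‖ = n at *
  have m0 : 0 < max n β := lt_max_of_lt_right hβ
  have h6 : 1 / max (min 1 (n / 2)) (β / 2) ≤ 2 * (1 + 1 / max n β) := by
    have m1 : 0 < 1 / max n β := by positivity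
    rcases le_total 1 (n / 2) with h7 | h7
    · rw [min_eq_left h7]
      exact ((div_le_one (lt_max_of_lt_left one_pos)).2 (le_max_left _ _)).trans (by linarith)
    · rw [min_eq_right h7, max_div_div_right zero_le_two, one_div_div, div_eq_mul_one_div]
      linarith
  refine edist_le_vst (by positivity) (by positivity) (h5.trans ?_)
  calc _ = 80 / κ * (1 / max (min 1 (n / 2)) (β / 2)) * (N * ‖Dn N t (y - y₀)‖) := by ring
    _ ≤ 80 / κ * (2 * (1 + 1 / max n β)) * (2 * ‖vst N t (y - y₀)‖) := by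
        have := Dn_le_vst hN ht (y - y₀)
        gcongr
    _ = _ := by ring

end lattice

/-- opening the holes -/
theorem hole {p : ℝ} (hp : 0 ≤ p) : HOLE p := by
  intro κ hκ hκ'
  have k1 : 1 ≤ 320 / κ := by rw [one_le_div hκ]; linarith
  refine ⟨(320 / κ).toNNReal, Real.one_le_toNNReal.2 k1, fun N t hN ht ht' => ?_⟩
  have hN' : (1:ℝ) ≤ N := by exact_mod_cast hN
  obtain ⟨C, hC⟩ : ∃ C : ℝ, C = 5 * N ^ 2 / (t * κ ^ 3) := ⟨_, rfl⟩
  have C0 : 0 ≤ C := by rw [hC]; positivity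
  refine ⟨(2 * C + 3).toNNReal, fun Bp c β hB hc => ?_⟩
  have ex : ∀ z, ∃ Θ : ConHomeo (univ : Set E3) (univ : Set E3), z ∈ Bp →
      IsHole N κ t (β z / 2) (crn N z) (c z) Θ.toFun := fun z => by
    by_cases hz : z ∈ Bp
    · obtain ⟨Θ, h⟩ := hole1 hN' hκ (by linarith) ht ht' (half_pos (hc z hz).2.1)
        (by linarith [(hc z hz).2.2]) (ctr_of_mid (hc z hz).1)
      exact ⟨Θ, fun _ => h⟩
    · exact ⟨ConHomeo.refl (IsOpen.conicalSet isOpen_univ), fun h => (hz h).elim⟩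
  choose Θ hΘ using ex
  obtain ⟨Φ, e1, e2⟩ := ACC.patch hB.toFinset Θ (fun z => obox N (crn N z))
    (fun z _ z' _ h => disjoint_left.2 fun y h1 h2 => h (eq_of_mem h1 (obox_subset h2)))
    fun z hz => (hΘ z (hB.mem_toFinset.1 hz)).out
  simp only [Finite.mem_toFinset] at e1 e2
  have m1 : ∀ z ∈ Bp, ∀ y ∈ obox N (crn N z), Φ.toFun y ∈ obox N (crn N z) := fun z hz y hy =>
    e1 z hz hy ▸ ACC.mapsTo_of_id (injOn_univ.1 (Θ z).injOn) (hΘ z hz).out hy
  have m2 : ∀ y, (∃ z ∈ Bp, y ∈ obox N (crn N z)) ∨ ∀ z ∈ Bp, y ∉ obox N (crn N z) := fun y => by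
    simpa only [not_exists, not_and] using em (∃ z ∈ Bp, y ∈ obox N (crn N z))
  have m3 : ∀ z y, Φ.toFun y ∈ lbox N 0 z ↔ y ∈ lbox N 0 z := fun z y => by
    rcases m2 y with ⟨z', hz', h⟩ | h
    · exact ⟨fun h' => eq_of_mem (m1 z' hz' y h) h' ▸ obox_subset h,
        fun h' => eq_of_mem h h' ▸ obox_subset (m1 z' hz' y h)⟩
    · rw [e2 y h]
  have m4 : ∀ z ∈ Bp, ∀ y ∈ lbox N 0 z, Φ.toFun y = (Θ z).toFun y := fun z hz y hy => by
    rcases m2 y with ⟨z', hz', h⟩ | h
    · obtain rfl := eq_of_mem h hy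
      exact e1 z' hz' h
    · rw [e2 y h, (hΘ z hz).out y (h z hz)]
  have m5 : ∀ y y', (∀ z ∈ Bp, y ∈ obox N (crn N z) → y' ∉ obox N (crn N z)) →
      ‖y - Φ.toFun y'‖ ≤ (C + 1) * ‖Φ.toFun y - Φ.toFun y'‖ := fun y y' hy => by
    rcases m2 y with ⟨z, hz, h⟩ | h
    · have h1 : Φ.toFun y' ∉ obox N (crn N z) := fun h1 => by
        rcases m2 y' with ⟨z', hz', h'⟩ | h'
        · obtain rfl := eq_of_mem h1 (obox_subset (m1 z' hz' y' h'))
          exact hy z hz h h'
        · exact h' z hz (e2 y' h' ▸ h1)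
      have h2 := (hΘ z hz).inv y (Φ.toFun y')
      rw [(hΘ z hz).out _ h1, ← e1 z hz h, ← hC] at h2
      exact h2.trans (mul_le_mul_of_nonneg_right (by linarith) (norm_nonneg _))
    · rw [e2 y h]
      exact le_mul_of_one_le_left (norm_nonneg _) (by linarith)
  have m6 : ∀ y y', ‖y - y'‖ ≤ (2 * C + 3) * ‖Φ.toFun y - Φ.toFun y'‖ := fun y y' => by
    by_cases h : ∃ z ∈ Bp, y ∈ obox N (crn N z) ∧ y' ∈ obox N (crn N z)
    · obtain ⟨z, hz, h1, h2⟩ := h
      have h3 := (hΘ z hz).inv y y'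
      rw [← e1 z hz h1, ← e1 z hz h2, ← hC] at h3
      exact h3.trans (mul_le_mul_of_nonneg_right (by linarith) (norm_nonneg _))
    · have h1 := m5 y y' fun z hz h1 h2 => h ⟨z, hz, h1, h2⟩
      have h2 := m5 y' y fun z hz h1 h2 => h ⟨z, hz, h2, h1⟩
      have h3 := dist_triangle4 y (Φ.toFun y') (Φ.toFun y) y'
      rw [dist_comm (Φ.toFun y'), dist_comm (Φ.toFun y) y'] at h3
      simp only [dist_eq_norm] at h3
      rw [norm_sub_rev (Φ.toFun y')] at h2
      linarith
  have m7 : ∀ y₀, ∀ᶠ y in 𝓝 y₀, edist (Φ.toFun y) (Φ.toFun y₀) ≤ ENNReal.ofReal (320 / κ) *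
      (1 + ⨆ z ∈ Bp, kern N t z (c z) (β z) y₀) * edist (vst N t y) (vst N t y₀) := fun y₀ => by
    have h1 := (eventually_all_finite hB).2 fun z hz =>
      (hΘ z hz).ev hN hκ (by linarith) ht ht' (hc z hz).2.1 y₀
    have h2 : ∀ᶠ y in 𝓝 y₀, ∀ z ∈ Bp, edist ((Θ z).toFun y) ((Θ z).toFun y₀) ≤
        ENNReal.ofReal (320 / κ) * (1 + ⨆ z ∈ Bp, kern N t z (c z) (β z) y₀) *
          edist (vst N t y) (vst N t y₀) := h1.mono fun y hy z hz => (hy z hz).trans (by
      gcongr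
      exact le_iSup₂ (f := fun z (_ : z ∈ Bp) => kern N t z (c z) (β z) y₀) z hz)
    rcases m2 y₀ with ⟨z, hz, h⟩ | h
    · filter_upwards [h2, (isOpen_obox _ _).mem_nhds h] with y h3 h4
      rw [e1 z hz h, e1 z hz h4]
      exact h3 z hz
    · filter_upwards [h2] with y h3
      rcases m2 y with ⟨z, hz, h4⟩ | h4
      · rw [e1 z hz h4, (e2 y₀ h).trans ((hΘ z hz).out y₀ (h z hz)).symm]
        exact h3 z hz
      · rw [e2 y h4, e2 y₀ h]
        refine (edist_le_vst (k := 0) (zero_le_one.trans k1) le_rfl ((norm_le_vst hN ht ht' _).trans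
          (le_mul_of_one_le_left (norm_nonneg _) (by linarith)))).trans (by gcongr; simp)
  refine ⟨Φ, fun y hy => e2 y fun z hz h => hy ?_, fun z => ?_, ?_, fun z hz y hy => ?_,
    fun z hz y hy h => ?_, fun g X hX hX' hg => ?_⟩
  · exact interior_maximal (obox_subset.trans (subset_biUnion_of_mem (u := lbox N 0) hz))
      (isOpen_obox _ _) h
  · refine Subset.antisymm (image_subset_iff.2 fun y hy => (m3 z y).2 hy) fun w hw => ?_
    exact ⟨Φ.invFun w, (m3 z _).1 (by rwa [Φ.right_inv (mem_univ w)]), Φ.right_inv (mem_univ w)⟩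
  · refine LipschitzWith.of_dist_le_mul fun w w' => ?_
    have := m6 (Φ.invFun w) (Φ.invFun w')
    rwa [Φ.right_inv (mem_univ w), Φ.right_inv (mem_univ w'), ← dist_eq_norm, ← dist_eq_norm,
      ← Real.coe_toNNReal (2 * C + 3) (by positivity)] at this
  · have h1 := mem_lbox.1 hy
    rw [m4 z hz y ((m3 z y).1 (mem_lbox.2 fun i =>
      ⟨by linarith [(h1 i).1], by linarith [(h1 i).2]⟩))] at h1
    rw [← Dn_eq]
    exact ((hΘ z hz).cav y h1).trans (half_le_self (hc z hz).2.1.le)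
  · obtain ⟨a0, a1, a2⟩ := (hΘ z hz).lat y h
    rw [m4 z hz y hy]
    refine ⟨fun i hi => ?_, fun hl => ?_⟩
    · fin_cases i
      exacts [a0, a1, (hi rfl).elim]
    · have l0 := hl 0 (by decide)
      have l1 := hl 1 (by decide)
      have w0 : wd N 0 = N := rfl
      have w1 : wd N 1 = N := rfl
      have w2 : crn N z 2 = z 2 := mul_one _
      rw [← w2]
      refine a2 ?_
      simp only [ld, crn, w0, w1, add_mul, one_mul] at l0 l1 ⊢
      exact le_min (le_min (by linarith [l0.1]) (by linarith [l0.2]))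
        (le_min (by linarith [l1.1]) (by linarith [l1.2]))
  · have hfin : mag N t Bp c β g X ≠ ⊤ := by
      refine ENNReal.add_ne_top.2 ⟨ENNReal.one_ne_top, ne_top_of_le_ne_top (ENNReal.sum_ne_top.2
        fun z (_ : z ∈ hB.toFinset) => ENNReal.ofReal_ne_top (r := 1 / β z))
        (iSup₂_le fun x _ => iSup₂_le fun z hz => le_trans ?_ (Finset.single_le_sum
          (f := fun z => ENNReal.ofReal (1 / β z)) (fun _ _ => bot_le) (hB.mem_toFinset.2 hz)))⟩
      unfold kern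
      split_ifs
      · exact ENNReal.ofReal_le_ofReal (one_div_le_one_div_of_le (hc z hz).2.1 (le_max_right _ _))
      · exact bot_le
    refine lipc_en_le hX hX'.measurableSet (Φ.cont.comp hg (mapsTo_univ _ _))
      (mul_ne_zero (ENNReal.ofReal_pos.2 (by linarith)).ne' (zero_lt_one.trans_le le_self_add).ne')
      (ENNReal.mul_ne_top ENNReal.coe_ne_top hfin) hp 2 fun x hx => ?_
    filter_upwards [(hg x hx).tendsto.eventually (m7 (g x))] with y hy
    exact hy.trans (mul_le_mul_left (mul_le_mul_right (add_le_add_right (le_iSup₂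
      (f := fun x (_ : x ∈ X) => ⨆ z ∈ Bp, kern N t z (c z) (β z) (g x)) x hx) _) _) _)

end P073.An2
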