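import Vale.Agent.P073Y.An2.Rad2
import Vale.Agent.P073Z.PUSH.A

/-!
# The vertical push which opens a hole
-/

open Set Metric Topology Filter MeasureTheory
open scoped ENNReal NNReal

namespace P073.An2

open P073 P073.Cone

/-- clamp to `[u, v]` -/
def clp (u v s : ℝ) : ℝ := max u (min s v)

theorem clp_mono (u v : ℝ) {s s' : ℝ} (h : s ≤ s') : clp u v s ≤ clp u v s' :=
  max_le_max le_rfl (min_le_min h le_rfl)

theorem clp_of_le {u v s : ℝ} (h : s ≤ u) : clp u v s = u :=
  max_eq_left ((min_le_left _ _).trans h)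

theorem clp_of_ge {u v s : ℝ} (huv : u ≤ v) (h : v ≤ s) : clp u v s = v := by
  unfold clp; rw [min_eq_right h, max_eq_right huv]

theorem clp_of_mem {u v s : ℝ} (h1 : u ≤ s) (h2 : s ≤ v) : clp u v s = s := by
  unfold clp; rw [min_eq_left h2, max_eq_right h1]

/-- the map of the line which fixes the complement of `(l, l + 1)` and sends `a, b` to
`l + κ, l + 1 - κ` -/
noncomputable def zt (l κ a b s : ℝ) : ℝ :=
  min s l + κ / (a - l) * (clp l a s - l) + (1 - 2 * κ) / (b - a) * (clp a b s - a) +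
    κ / (l + 1 - b) * (clp b (l + 1) s - b) + (max s (l + 1) - (l + 1))

/-- admissible parameters -/
structure Zp (l κ a b : ℝ) : Prop where
  pos : 0 < κ
  lo : l + κ ≤ a
  lt : a < b
  hi : b ≤ l + 1 - κ

namespace Zp

variable {l κ a b s s' : ℝ}

theorem split (h : Zp l κ a b) (s : ℝ) : s = min s l + (clp l a s - l) + (clp a b s - a) +
    (clp b (l + 1) s - b) + (max s (l + 1) - (l + 1)) := by
  have h1 := h.pos; have h2 := h.lo; have h3 := h.lt; have h4 := h.hi
  unfold clp
  simp only [max_def, min_def]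
  split_ifs <;> linarith

theorem of_le (h : Zp l κ a b) (hs : s ≤ l) : zt l κ a b s = s := by
  have h1 := h.pos; have h2 := h.lo; have h3 := h.lt; have h4 := h.hi
  unfold zt
  rw [min_eq_left hs, clp_of_le hs, clp_of_le (by linarith), clp_of_le (by linarith),
    max_eq_right (by linarith)]
  ring

theorem of_ge (h : Zp l κ a b) (hs : l + 1 ≤ s) : zt l κ a b s = s := by
  have h1 := h.pos; have h2 := h.lo; have h3 := h.lt; have h4 := h.hi
  unfold zt
  rw [min_eq_right (by linarith), clp_of_ge (by linarith) (by linarith),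
    clp_of_ge (by linarith) (by linarith), clp_of_ge (by linarith) hs, max_eq_left hs,
    div_mul_cancel₀ _ (by linarith), div_mul_cancel₀ _ (by linarith),
    div_mul_cancel₀ _ (by linarith)]
  ring

theorem of_mid (h : Zp l κ a b) (h1 : a ≤ s) (h2 : s ≤ b) :
    zt l κ a b s = l + κ + (1 - 2 * κ) / (b - a) * (s - a) := by
  have h0 := h.pos; have h3 := h.lo; have h4 := h.hi
  unfold zt
  rw [min_eq_right (by linarith), clp_of_ge (by linarith) h1, clp_of_mem h1 h2, clp_of_le h2,
    max_eq_right (by linarith), div_mul_cancel₀ _ (by linarith)]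
  ring

theorem bounds (h : Zp l κ a b) (hs : s ≤ s') : κ * (s' - s) ≤ zt l κ a b s' - zt l κ a b s ∧
    zt l κ a b s' - zt l κ a b s ≤ 1 / (b - a) * (s' - s) ∧
    (s' ≤ a ∨ b ≤ s → zt l κ a b s' - zt l κ a b s ≤ s' - s) := by
  have h0 := h.pos; have h1 := h.lo; have h2 := h.lt; have h3 := h.hi
  have d0 : 0 ≤ min s' l - min s l := sub_nonneg.2 (min_le_min hs le_rfl)
  have d1 := sub_nonneg.2 (clp_mono l a hs)
  have d2 := sub_nonneg.2 (clp_mono a b hs)
  have d3 := sub_nonneg.2 (clp_mono b (l + 1) hs)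
  have d4 : 0 ≤ max s' (l + 1) - max s (l + 1) := sub_nonneg.2 (max_le_max hs le_rfl)
  have e := h.split s
  have e' := h.split s'
  have k1 : κ ≤ κ / (a - l) := by rw [le_div_iff₀ (by linarith)]; nlinarith
  have k1' : κ / (a - l) ≤ 1 := by rw [div_le_one (by linarith)]; linarith
  have k2 : 1 ≤ (1 - 2 * κ) / (b - a) := by rw [one_le_div (by linarith)]; linarith
  have k2' : (1 - 2 * κ) / (b - a) ≤ 1 / (b - a) :=
    div_le_div_of_nonneg_right (by linarith) (by linarith)
  have k3 : κ ≤ κ / (l + 1 - b) := by rw [le_div_iff₀ (by linarith)]; nlinarith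
  have k3' : κ / (l + 1 - b) ≤ 1 := by rw [div_le_one (by linarith)]; linarith
  have hκ : κ ≤ 1 := by linarith
  have ez : zt l κ a b s' - zt l κ a b s = (min s' l - min s l) +
      κ / (a - l) * (clp l a s' - clp l a s) + (1 - 2 * κ) / (b - a) * (clp a b s' - clp a b s) +
      κ / (l + 1 - b) * (clp b (l + 1) s' - clp b (l + 1) s) +
      (max s' (l + 1) - max s (l + 1)) := by unfold zt; ring
  have es : s' - s = (min s' l - min s l) + (clp l a s' - clp l a s) + (clp a b s' - clp a b s) +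
      (clp b (l + 1) s' - clp b (l + 1) s) + (max s' (l + 1) - max s (l + 1)) := by linarith
  rw [ez]
  generalize min s' l - min s l = x0 at *
  generalize clp l a s' - clp l a s = x1 at *
  generalize clp b (l + 1) s' - clp b (l + 1) s = x3 at *
  generalize max s' (l + 1) - max s (l + 1) = x4 at *
  have m1 := mul_le_mul_of_nonneg_right k1 d1
  have m1' := mul_le_mul_of_nonneg_right k1' d1
  have m2 := mul_le_mul_of_nonneg_right k2 d2
  have m2' := mul_le_mul_of_nonneg_right k2' d2
  have m3 := mul_le_mul_of_nonneg_right k3 d3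
  have m3' := mul_le_mul_of_nonneg_right k3' d3
  have k4 : 1 ≤ 1 / (b - a) := k2.trans k2'
  refine ⟨?_, ?_, fun hh => ?_⟩
  · rw [es]
    nlinarith [mul_le_mul_of_nonneg_right hκ d0, mul_le_mul_of_nonneg_right hκ d2,
      mul_le_mul_of_nonneg_right hκ d4]
  · rw [es]
    nlinarith [mul_le_mul_of_nonneg_right k4 d0, mul_le_mul_of_nonneg_right k4 d1,
      mul_le_mul_of_nonneg_right k4 d3, mul_le_mul_of_nonneg_right k4 d4]
  · have : clp a b s' - clp a b s = 0 := by
      rcases hh with hh | hh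
      · rw [clp_of_le hh, clp_of_le (hs.trans hh), sub_self]
      · rw [clp_of_ge h2.le hh, clp_of_ge h2.le (hh.trans hs), sub_self]
    rw [es, this]
    linarith

theorem strictMono (h : Zp l κ a b) : StrictMono (zt l κ a b) := fun s s' hs => by
  have := (h.bounds hs.le).1
  nlinarith [h.pos]

theorem abs_le (h : Zp l κ a b) (s s' : ℝ) :
    |zt l κ a b s - zt l κ a b s'| ≤ 1 / (b - a) * |s - s'| := by
  rcases le_total s s' with hs | hs
  · rw [abs_sub_comm, abs_sub_comm s, abs_of_nonneg (sub_nonneg.2 (h.strictMono.monotone hs)),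
      abs_of_nonneg (sub_nonneg.2 hs)]
    exact (h.bounds hs).2.1
  · rw [abs_of_nonneg (sub_nonneg.2 (h.strictMono.monotone hs)), abs_of_nonneg (sub_nonneg.2 hs)]
    exact (h.bounds hs).2.1

theorem abs_le_off (h : Zp l κ a b) (hh : (s ≤ a ∧ s' ≤ a) ∨ (b ≤ s ∧ b ≤ s')) :
    |zt l κ a b s - zt l κ a b s'| ≤ |s - s'| := by
  rcases le_total s s' with hs | hs
  · rw [abs_sub_comm, abs_sub_comm s, abs_of_nonneg (sub_nonneg.2 (h.strictMono.monotone hs)),
      abs_of_nonneg (sub_nonneg.2 hs)]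
    exact (h.bounds hs).2.2 (hh.imp And.right And.left)
  · rw [abs_of_nonneg (sub_nonneg.2 (h.strictMono.monotone hs)), abs_of_nonneg (sub_nonneg.2 hs)]
    exact (h.bounds hs).2.2 (hh.imp And.left And.right)

theorem near (h : Zp l κ a b) (s : ℝ) : |zt l κ a b s - s| ≤ 1 := by
  rcases le_total s l with h1 | h1
  · rw [h.of_le h1, sub_self, abs_zero]; exact zero_le_one
  rcases le_total (l + 1) s with h2 | h2
  · rw [h.of_ge h2, sub_self, abs_zero]; exact zero_le_one
  have a1 := h.strictMono.monotone h1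
  have a2 := h.strictMono.monotone h2
  rw [h.of_le le_rfl] at a1
  rw [h.of_ge le_rfl] at a2
  exact _root_.abs_le.2 ⟨by linarith, by linarith⟩

end Zp

theorem continuous_zt (l κ a b : ℝ) : Continuous (zt l κ a b) := by
  unfold zt clp; fun_prop

theorem conicalOn_zt (l κ a b : ℝ) : ConicalOn (zt l κ a b) univ := by
  have hu : ConicalSet (univ : Set ℝ) := IsOpen.conicalSet isOpen_univ
  have hi : ConicalOn (fun s : ℝ => s) univ := conicalOn_id hu
  have hc : ∀ u v w k : ℝ, ConicalOn (fun s => k • (clp u v s - w)) univ := fun u v w k =>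
    ConicalOn.const_smul _ (((conicalOn_const u hu).rmax (hi.rmin (conicalOn_const v hu)
      (by fun_prop) (by fun_prop)) (by fun_prop) (by fun_prop)).sub (conicalOn_const w hu))
  exact ((((hi.rmin (conicalOn_const l hu) (by fun_prop) (by fun_prop)).add (hc _ _ _ _)).add
    (hc _ _ _ _)).add (hc _ _ _ _)).add ((hi.rmax (conicalOn_const _ hu) (by fun_prop)
      (by fun_prop)).sub (conicalOn_const _ hu))

/-- the median of `s - τ`, `ζ s`, `s + τ` -/
def med (ζ : ℝ → ℝ) (s τ : ℝ) : ℝ := max (s - τ) (min (ζ s) (s + τ))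

section med

variable {ζ : ℝ → ℝ} {s s' τ τ' : ℝ}

theorem med_of_eq (hτ : 0 ≤ τ) (h : ζ s = s) : med ζ s τ = s := by
  unfold med
  rw [h, min_eq_left (by linarith), max_eq_right (by linarith)]

theorem med_zero : med ζ s 0 = s := by
  unfold med
  rw [sub_zero, add_zero, max_eq_left (min_le_right _ _)]

theorem med_of_near (h : |ζ s - s| ≤ τ) : med ζ s τ = ζ s := by
  rw [abs_le] at h
  unfold med
  rw [min_eq_left (by linarith [h.2]), max_eq_right (by linarith [h.1])]

theorem abs_med_sub (ζ : ℝ → ℝ) (s s' τ τ' : ℝ) :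
    |med ζ s τ - med ζ s' τ'| ≤ max |ζ s - ζ s'| (|s - s'| + |τ - τ'|) := by
  refine (abs_max_sub_max_le_max _ _ _ _).trans (max_le (le_max_of_le_right ?_)
    ((abs_min_sub_min_le_max _ _ _ _).trans (max_le_max le_rfl ?_)))
  · rw [show s - τ - (s' - τ') = s - s' - (τ - τ') by ring]; exact abs_sub _ _
  · rw [show s + τ - (s' + τ') = s - s' + (τ - τ') by ring]; exact abs_add_le _ _

theorem le_med_sub {κ : ℝ} (hκ : κ ≤ 1) (hs : s ≤ s') (h : κ * (s' - s) ≤ ζ s' - ζ s) (τ : ℝ) :
    κ * (s' - s) ≤ med ζ s' τ - med ζ s τ := by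
  have h1 : κ * (s' - s) ≤ s' - s := mul_le_of_le_one_left (by linarith) hκ
  unfold med
  simp only [max_def, min_def]
  split_ifs <;> linarith

end med

end P073.An2
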