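import Vale.Agent.P073Y.An2.Radial

/-!
# Averaging over the apex
-/

open Set Metric Topology Filter MeasureTheory
open scoped ENNReal NNReal

namespace P073.An2

open P073 P073.Cone

variable {n k : ℕ}

/-- the singular kernel `‖y - c‖ ^ (-q)` -/
noncomputable def ker (q : ℝ) (c y : Fin n → ℝ) : ℝ≥0∞ := (ENNReal.ofReal ‖y - c‖)⁻¹ ^ q

theorem measurable_ker (q : ℝ) :
    Measurable fun z : (Fin n → ℝ) × (Fin n → ℝ) => ker q z.1 z.2 :=
  ((measurable_snd.sub measurable_fst).norm.ennreal_ofReal.inv).pow_const q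

theorem measurable_ker_right (q : ℝ) (c : Fin n → ℝ) : Measurable (ker q c) :=
  ((measurable_id.sub measurable_const).norm.ennreal_ofReal.inv).pow_const q

theorem lintegral_ker_ball {p : ℝ} (hp : p < (k:ℝ) + 1) :
    ∫⁻ z in ball (0 : Fin (k + 1) → ℝ) 1, ker p 0 z ≠ ⊤ := by
  have hd : Module.finrank ℝ (Fin (k + 1) → ℝ) = k + 1 := by simp
  have h1 : IntegrableOn (fun z : Fin (k + 1) → ℝ => ‖z‖ ^ (-p)) (ball 0 1) volume := by
    refine integrableOn_ball_of_norm_le_rpow (C := 1) (α := p) (by rw [hd]; omega)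
      (by rw [hd]; push_cast; exact hp) (Eventually.of_forall fun z => ?_)
      (measurable_norm.pow_const _).aestronglyMeasurable
    rw [one_mul, Real.norm_of_nonneg (by positivity)]
  refine ne_top_of_le_ne_top h1.lintegral_lt_top.ne (le_of_eq (lintegral_congr_ae ?_))
  have h0 : ∀ᵐ z : Fin (k + 1) → ℝ, z ≠ 0 := by simp [ae_iff]
  filter_upwards [ae_restrict_of_ae h0] with z hz
  have hz' : 0 < ‖z‖ := norm_pos_iff.2 hz
  rw [ker, sub_zero, ← ENNReal.ofReal_inv_of_pos hz', ENNReal.ofReal_rpow_of_pos (inv_pos.2 hz'),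
    Real.inv_rpow hz'.le, Real.rpow_neg hz'.le]

theorem ker_le {p q : ℝ} (h0 : 0 ≤ q) (hq : q ≤ p) (c y : Fin n → ℝ) :
    ker q c y ≤ (ball 0 1).indicator (ker p 0) (y - c) + 1 := by
  rcases lt_or_ge ‖y - c‖ 1 with h | h
  · rw [indicator_of_mem (mem_ball_zero_iff.2 h)]
    refine le_trans ?_ le_self_add
    simp only [ker, sub_zero]
    exact ENNReal.rpow_le_rpow_of_exponent_le
      (ENNReal.one_le_inv.2 (ENNReal.ofReal_le_one.2 h.le)) hq
  · refine le_trans ?_ le_add_self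
    exact ENNReal.rpow_le_one (ENNReal.inv_le_one.2 (ENNReal.one_le_ofReal.2 h)) h0

theorem volume_half : volume (closedBall (0 : Fin n → ℝ) (1 / 2)) = 1 := by
  rw [Real.volume_pi_closedBall _ (by norm_num)]
  norm_num

/-- the averaging constant -/
noncomputable def Cav (k : ℕ) (p : ℝ) : ℝ≥0∞ :=
  (∫⁻ z in ball (0 : Fin (k + 1) → ℝ) 1, ker p 0 z) + 1

theorem Cav_ne_top {p : ℝ} (hp : p < (k:ℝ) + 1) : Cav k p ≠ ⊤ :=
  ENNReal.add_ne_top.2 ⟨lintegral_ker_ball hp, ENNReal.one_ne_top⟩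

theorem Cav_ne_zero (p : ℝ) : Cav k p ≠ 0 := (zero_lt_one.trans_le le_add_self).ne'

theorem lintegral_ker_le {p q : ℝ} (h0 : 0 ≤ q) (hq : q ≤ p) (y : Fin (k + 1) → ℝ) :
    ∫⁻ c in closedBall (0 : Fin (k + 1) → ℝ) (1 / 2), ker q c y ≤ Cav k p := by
  refine (lintegral_mono fun c => ker_le h0 hq c y).trans ?_
  rw [lintegral_add_right _ measurable_const, setLIntegral_const, volume_half, one_mul]
  refine add_le_add ((setLIntegral_le_lintegral _ _).trans (le_of_eq ?_)) le_rfl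
  rw [lintegral_sub_left_eq_self ((ball 0 1).indicator (ker p 0)) y,
    lintegral_indicator measurableSet_ball]

/-- the mean over the apex of the singular integral of a measure -/
theorem lintegral_lintegral_ker_le {p q : ℝ} (h0 : 0 ≤ q) (hq : q ≤ p)
    (μ : Measure (Fin (k + 1) → ℝ)) [SFinite μ] :
    ∫⁻ c in closedBall (0 : Fin (k + 1) → ℝ) (1 / 2), ∫⁻ y, ker q c y ∂μ ≤ Cav k p * μ univ := by
  rw [lintegral_lintegral_swap (measurable_ker q).aemeasurable, ← lintegral_const]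
  exact lintegral_mono fun y => lintegral_ker_le h0 hq y

/-- simultaneous first moment method -/
theorem exists_forall_le_card_mul {α ι : Type} [MeasurableSpace α] [Fintype ι] (μ : Measure α)
    [IsProbabilityMeasure μ] {F : ι → α → ℝ≥0∞} (hF : ∀ i, AEMeasurable (F i) μ) {N : Set α}
    (hN : μ N = 0) : ∃ c, c ∉ N ∧ ∀ i, F i c ≤ Fintype.card ι * ∫⁻ a, F i a ∂μ := by
  have hm : ∀ i, AEMeasurable (fun c => F i c / ∫⁻ a, F i a ∂μ) μ := fun i => (hF i).div_const _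
  obtain ⟨c, hc, hle⟩ := exists_notMem_null_le_lintegral (μ := μ)
    (f := fun c => ∑ i, F i c / ∫⁻ a, F i a ∂μ) (Finset.aemeasurable_fun_sum _ fun i _ => hm i) hN
  refine ⟨c, hc, fun i => ?_⟩
  have h1 : ∫⁻ c, ∑ i, F i c / ∫⁻ a, F i a ∂μ ∂μ ≤ Fintype.card ι := by
    rw [lintegral_finsetSum' _ fun i _ => hm i]
    refine (Finset.sum_le_card_nsmul _ _ 1 fun i _ => ?_).trans (by simp)
    simp only [div_eq_mul_inv]
    rw [lintegral_mul_const'' _ (hF i)]
    exact ENNReal.mul_inv_le_one _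
  have h2 : F i c / ∫⁻ a, F i a ∂μ ≤ Fintype.card ι :=
    (Finset.single_le_sum (f := fun i => F i c / ∫⁻ a, F i a ∂μ) (fun _ _ => bot_le)
      (Finset.mem_univ i)).trans (hle.trans h1)
  have : Nonempty ι := ⟨i⟩
  exact (ENNReal.div_le_iff_le_mul (Or.inr (ENNReal.natCast_ne_top _))
    (Or.inr (by exact_mod_cast Fintype.card_ne_zero))).1 h2

/-- choice of the apex for finitely many measures, off a set `N` of measure at most one half -/
def APEX (k : ℕ) : Prop := ∀ {p : ℝ}, p < (k:ℝ) + 1 → ∃ C : ℝ≥0,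
  ∀ {ι : Type} [Fintype ι] (q : ι → ℝ) (μ : ι → Measure (Fin (k + 1) → ℝ))
    (N : Set (Fin (k + 1) → ℝ)), (∀ i, 0 ≤ q i ∧ q i ≤ p) → volume N ≤ 2⁻¹ →
    ∃ c : Fin (k + 1) → ℝ, ‖c‖ ≤ 1 / 2 ∧ c ∉ N ∧
      ∀ i, ∫⁻ y, ker (q i) c y ∂(μ i) ≤ Fintype.card ι * C * μ i univ

theorem apex (k : ℕ) : APEX k := by
  intro p hp
  have hC : 2 * Cav k p ≠ ⊤ := ENNReal.mul_ne_top ENNReal.ofNat_ne_top (Cav_ne_top hp)
  refine ⟨(2 * Cav k p).toNNReal, fun {ι} _ q μ N hq hN => ?_⟩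
  rw [ENNReal.coe_toNNReal hC]
  classical
  set ν : ι → Measure (Fin (k + 1) → ℝ) := fun i => if μ i univ = ⊤ then 0 else μ i with hν
  have hfin : ∀ i, IsFiniteMeasure (ν i) := by
    intro i
    simp only [hν]
    split_ifs with h
    · infer_instance
    · exact ⟨lt_top_iff_ne_top.2 h⟩
  set G : Set (Fin (k + 1) → ℝ) := closedBall 0 (1 / 2) \ toMeasurable volume N with hG
  have hGm : MeasurableSet G := measurableSet_closedBall.diff (measurableSet_toMeasurable _ _)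
  have hG1 : volume G ≤ 1 := (measure_mono sdiff_subset).trans volume_half.le
  have hG2 : 2⁻¹ ≤ volume G := by
    refine le_trans ?_ le_measure_sdiff
    rw [volume_half, measure_toMeasurable]
    refine le_trans (le_of_eq ?_) (tsub_le_tsub_left hN 1)
    exact ENNReal.one_sub_inv_two.symm
  have hG0 : volume G ≠ 0 := (lt_of_lt_of_le (by simp) hG2).ne'
  have hG3 : (volume G)⁻¹ ≤ 2 := ENNReal.inv_le_iff_inv_le.2 hG2
  have : IsProbabilityMeasure ((volume G)⁻¹ • volume.restrict G) := ⟨by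
    rw [Measure.smul_apply, Measure.restrict_apply_univ, smul_eq_mul,
      ENNReal.inv_mul_cancel hG0 (ne_top_of_le_ne_top ENNReal.one_ne_top hG1)]⟩
  obtain ⟨c, hc, hle⟩ := exists_forall_le_card_mul ((volume G)⁻¹ • volume.restrict G)
    (F := fun i c => ∫⁻ y, ker (q i) c y ∂(ν i))
    (fun i => (measurable_ker (q i)).lintegral_prod_right'.aemeasurable)
    (N := Gᶜ) (by rw [Measure.smul_apply, Measure.restrict_apply hGm.compl]; simp)
  rw [notMem_compl_iff] at hc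
  refine ⟨c, mem_closedBall_zero_iff.1 hc.1, fun h => hc.2 (subset_toMeasurable _ _ h), fun i => ?_⟩
  by_cases h : μ i univ = ⊤
  · have : Nonempty ι := ⟨i⟩
    rw [h, ENNReal.mul_top (mul_ne_zero (by exact_mod_cast Fintype.card_ne_zero)
      (mul_ne_zero two_ne_zero (Cav_ne_zero p)))]
    exact le_top
  · have e : ν i = μ i := if_neg h
    have h1 := hle i
    rw [lintegral_smul_measure, smul_eq_mul] at h1
    have h2 := h1.trans (mul_le_mul_right (mul_le_mul' hG3 ((lintegral_mono_set sdiff_subset).trans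
      (lintegral_lintegral_ker_le (hq i).1 (hq i).2 (ν i)))) _)
    rwa [e, ← mul_assoc 2, ← mul_assoc] at h2

/-- choice of the apex for finitely many weighted maps -/
theorem apex_map {p : ℝ} (hp : p < (k:ℝ) + 1) : ∃ C : ℝ≥0,
    ∀ {ι : Type} [Fintype ι] {α : ι → Type} [∀ i, MeasurableSpace (α i)] (q : ι → ℝ)
      (ν : ∀ i, Measure (α i)) (f : ∀ i, α i → Fin (k + 1) → ℝ) (g : ∀ i, α i → ℝ≥0∞)
      (N : Set (Fin (k + 1) → ℝ)), (∀ i, 0 ≤ q i ∧ q i ≤ p) → (∀ i, AEMeasurable (f i) (ν i)) →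
      (∀ i, AEMeasurable (g i) (ν i)) → volume N ≤ 2⁻¹ →
      ∃ c : Fin (k + 1) → ℝ, ‖c‖ ≤ 1 / 2 ∧ c ∉ N ∧
        ∀ i, ∫⁻ x, g i x * ker (q i) c (f i x) ∂(ν i) ≤
          Fintype.card ι * C * ∫⁻ x, g i x ∂(ν i) := by
  obtain ⟨C, hC⟩ := apex k hp
  refine ⟨C, fun {ι} _ α _ q ν f g N hq hf hg hN => ?_⟩
  obtain ⟨c, h1, h2, h3⟩ := hC q (fun i => ((ν i).withDensity (g i)).map (f i)) N hq hN
  refine ⟨c, h1, h2, fun i => ?_⟩
  have hf' : AEMeasurable (f i) ((ν i).withDensity (g i)) :=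
    (hf i).mono' (withDensity_absolutelyContinuous _ _)
  have := h3 i
  rwa [lintegral_map' (measurable_ker_right _ c).aemeasurable hf',
    lintegral_withDensity_eq_lintegral_mul₀ (g := fun a => ker (q i) c (f i a)) (hg i)
      ((measurable_ker_right _ c).comp_aemeasurable (hf i)),
    Measure.map_apply_of_aemeasurable hf' MeasurableSet.univ, preimage_univ,
    withDensity_apply _ MeasurableSet.univ, Measure.restrict_univ] at this

theorem ofReal_div_max_le (A : ℝ) {β : ℝ} (hβ : 0 < β) (c y : Fin n → ℝ) :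
    ENNReal.ofReal (A / max ‖y - c‖ β) ≤ ENNReal.ofReal A * (ENNReal.ofReal ‖y - c‖)⁻¹ := by
  rw [ENNReal.ofReal_div_of_pos (lt_max_of_lt_right hβ), div_eq_mul_inv]
  exact mul_le_mul_right (ENNReal.inv_le_inv.2 (ENNReal.ofReal_le_ofReal (le_max_left _ _))) _

/-- choice of the apex: energies of finitely many maps into the cube after the radial chart -/
def RADEN (k : ℕ) : Prop := ∀ {p : ℝ}, p < (k:ℝ) + 1 → ∃ C : ℝ≥0,
  ∀ {ι : Type} [Fintype ι] {S : Type} [MetricSpace S] [MeasurableSpace S] [BorelSpace S]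
    (d : ι → ℕ) (q : ι → ℝ) (X : ι → Set S) (f : ι → S → Fin (k + 1) → ℝ)
    (N : Set (Fin (k + 1) → ℝ)), (∀ i, 0 ≤ q i ∧ q i ≤ p) → (∀ i, MeasurableSet (X i)) →
    (∀ i, ContinuousOn (f i) (X i)) → (∀ i, MapsTo (f i) (X i) (closedBall 0 1)) →
    volume N ≤ 2⁻¹ → ∃ c : Fin (k + 1) → ℝ, ‖c‖ ≤ 1 / 2 ∧ c ∉ N ∧
      ∀ (β : ℝ) (ρ : (Fin (k + 1) → ℝ) → Fin (k + 1) → ℝ), 0 < β →
        (∀ y ∈ closedBall (0 : Fin (k + 1) → ℝ) 1,
          lipAt ρ (closedBall 0 1) y ≤ ENNReal.ofReal (20 / max ‖y - c‖ β)) →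
        ∀ i, En (d i) (q i) (ρ ∘ f i) (X i) ≤ Fintype.card ι * C * En (d i) (q i) (f i) (X i)

theorem raden (k : ℕ) : RADEN k := by
  intro p hp
  obtain ⟨C, hC⟩ := apex_map hp
  refine ⟨20 ^ p * C, fun {ι} _ S _ _ _ d q X f N hq hX hf hm hN => ?_⟩
  obtain ⟨c, h1, h2, h3⟩ := hC (α := fun _ => S) q (fun i => (μH[(d i : ℝ)]).restrict (X i)) f
    (fun i x => lipAt (f i) (X i) x ^ q i) N hq (fun i => (hf i).aemeasurable (hX i))
    (fun i => (aemeasurable_lipAt (hX i) (hf i) _).pow_const _) hN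
  refine ⟨c, h1, h2, fun β ρ hβ hρ i => ?_⟩
  have h20 : (20 : ℝ≥0∞) ^ q i ≤ ((20 ^ p : ℝ≥0) : ℝ≥0∞) := by
    rw [ENNReal.coe_rpow_of_ne_zero (by norm_num)]
    exact ENNReal.rpow_le_rpow_of_exponent_le (by norm_num) (hq i).2
  calc En (d i) (q i) (ρ ∘ f i) (X i)
      ≤ ∫⁻ x in X i, ((20 ^ p : ℝ≥0) : ℝ≥0∞) * (lipAt (f i) (X i) x ^ q i * ker (q i) c (f i x))
          ∂(μH[(d i : ℝ)]) := by
        refine setLIntegral_mono' (hX i) fun x hx => ?_
        have a1 := lipAt_comp_le_mul (ENNReal.ofReal_pos.2 (by positivity)).ne'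
          ENNReal.ofReal_ne_top (hρ _ (hm i hx)) (hf i x hx) (hm i)
        have a2 := a1.trans (mul_le_mul_left (ofReal_div_max_le 20 hβ c (f i x)) _)
        refine (ENNReal.rpow_le_rpow a2 (hq i).1).trans ?_
        rw [ENNReal.mul_rpow_of_nonneg _ _ (hq i).1, ENNReal.mul_rpow_of_nonneg _ _ (hq i).1,
          ENNReal.ofReal_ofNat, mul_assoc, mul_comm (lipAt _ _ _ ^ _)]
        exact mul_le_mul_left h20 _
    _ ≤ ((20 ^ p : ℝ≥0) : ℝ≥0∞) * (Fintype.card ι * C * En (d i) (q i) (f i) (X i)) := by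
        rw [lintegral_const_mul' _ _ ENNReal.coe_ne_top]
        exact mul_le_mul_right (h3 i) _
    _ = _ := by push_cast; ring

end P073.An2
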