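import Vale.Agent.P073Y.An2.Apex

/-!
# The radial retraction of a bi-Lipschitz cell from a well chosen apex
-/

open Set Metric Topology Filter MeasureTheory
open scoped ENNReal NNReal

namespace P073.An2

open P073 P073.Cone

section Post

variable {S T T' : Type} [MetricSpace S] [PseudoEMetricSpace T] [PseudoEMetricSpace T']

theorem lipAt_post_le {f : S → T} {g : T → T'} {X : Set S} {Y : Set T} {M : ℝ≥0} {x : S}
    (hg : LipschitzOnWith M g Y) (hm : MapsTo f X Y) (hx : x ∈ X) :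
    lipAt (g ∘ f) X x ≤ M * lipAt f X x := by
  by_cases hM : M = 0
  · refine (lipAt_le (c := 0) (eventually_nhdsWithin_of_forall fun y hy => ?_)).trans bot_le
    have := hg (hm hy) (hm hx)
    rwa [hM, ENNReal.coe_zero, zero_mul, ← zero_mul (edist y x)] at this
  rw [← add_zero (M * lipAt f X x)]
  refine le_of_forall_gt_aff (by exact_mod_cast hM) ENNReal.coe_ne_top fun c hc => lipAt_le ?_
  filter_upwards [ev_of_lipAt_lt hc, self_mem_nhdsWithin] with y h1 hy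
  rw [add_zero, mul_assoc]
  exact (hg (hm hy) (hm hx)).trans (mul_le_mul_right h1 _)

/-- post composition with a Lipschitz map -/
theorem en_post_le [MeasurableSpace S] [BorelSpace S] {d : ℕ} {q : ℝ} (hq : 0 ≤ q) {f : S → T}
    {g : T → T'} {X : Set S} {Y : Set T} {M : ℝ≥0} (hX : MeasurableSet X)
    (hg : LipschitzOnWith M g Y) (hm : MapsTo f X Y) :
    En d q (g ∘ f) X ≤ (M : ℝ≥0∞) ^ q * En d q f X := by
  unfold En
  rw [← lintegral_const_mul' _ _ (ENNReal.rpow_ne_top_of_nonneg hq ENNReal.coe_ne_top)]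
  refine setLIntegral_mono' hX fun x hx => ?_
  rw [← ENNReal.mul_rpow_of_nonneg _ _ hq]
  exact ENNReal.rpow_le_rpow (lipAt_post_le hg hm hx) hq

end Post

theorem rpow_le_max_one {M : ℝ≥0} {q p : ℝ} (h0 : 0 ≤ q) (hq : q ≤ p) :
    (M : ℝ≥0∞) ^ q ≤ (((max M 1) ^ p : ℝ≥0) : ℝ≥0∞) := by
  rw [ENNReal.coe_rpow_of_nonneg _ (h0.trans hq)]
  refine (ENNReal.rpow_le_rpow (ENNReal.coe_le_coe.2 (le_max_left M 1)) h0).trans ?_
  exact ENNReal.rpow_le_rpow_of_exponent_le (by exact_mod_cast le_max_right M 1) hq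

/-- the radial retraction of a cell with a bi-Lipschitz chart `φ`; the apex is `φ.invFun c` -/
def CAV : Prop := ∀ {p : ℝ}, p < 3 → ∀ M : ℝ≥0, ∃ C : ℝ≥0,
  ∀ {D B : Set E3} (φ : ConHomeo D (closedBall (0 : E3) 1)) {K L : ℝ≥0}, B ⊆ D →
    φ.toFun '' B = sphere 0 1 → LipschitzOnWith K φ.toFun D →
    LipschitzOnWith L φ.invFun (closedBall 0 1) → K * L ≤ M →
  ∀ {ι : Type} [Fintype ι] {S : Type} [MetricSpace S] [MeasurableSpace S] [BorelSpace S]
    (d : ι → ℕ) (q : ι → ℝ) (X : ι → Set S) (f : ι → S → E3) (N : Set E3),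
    (∀ i, 0 ≤ q i ∧ q i ≤ p) → (∀ i, MeasurableSet (X i)) → (∀ i, ContinuousOn (f i) (X i)) →
    (∀ i, MapsTo (f i) (X i) D) → (K : ℝ≥0∞) ^ 3 * volume (N ∩ D) ≤ 2⁻¹ →
    ∃ c : E3, ‖c‖ ≤ 1 / 2 ∧ φ.invFun c ∉ N ∧
      ∀ β r : ℝ, 0 < β → β ≤ 1 / 4 → 1 / 2 ≤ r → r < 1 → ∃ R : ConHomeo D D,
        EqOn R.toFun id B ∧
        (∀ y ∈ D, ‖φ.toFun y - c‖ ≤ β → φ.toFun (R.toFun y) = (r / β) • (φ.toFun y - c)) ∧
        (∀ y ∈ D, β ≤ ‖φ.toFun y - c‖ → r ≤ ‖φ.toFun (R.toFun y)‖) ∧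
        R.toFun '' (φ.invFun '' closedBall c β) = φ.invFun '' closedBall 0 r ∧
        R.toFun '' (φ.invFun '' ball c β) = φ.invFun '' ball 0 r ∧
        ∀ i, En (d i) (q i) (R.toFun ∘ f i) (X i) ≤
          Fintype.card ι * C * En (d i) (q i) (f i) (X i)

theorem cav : CAV := by
  intro p hp M
  obtain ⟨C, hC⟩ := raden 2 (p := p) (by push_cast; linarith)
  refine ⟨max M 1 ^ p * C,
    fun {D B} φ K L hBD hφB l1 l2 hKL ι _ S _ _ _ d q X f N hq hX hf hm hN => ?_⟩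
  have hN' : volume (φ.toFun '' (N ∩ D)) ≤ 2⁻¹ := by
    have := (l1.mono (inter_subset_right (s := N))).hausdorffMeasure_image_le
      (d := ((3:ℕ):ℝ)) (by positivity)
    rw [hvol, ENNReal.rpow_natCast] at this
    exact this.trans hN
  obtain ⟨c, h1, h2, h3⟩ := hC d q X (fun i => φ.toFun ∘ f i) _ hq hX
    (fun i => φ.cont.comp (hf i) (hm i)) (fun i => φ.mapsTo.comp (hm i)) hN'
  have hc : c ∈ closedBall (0 : E3) 1 := mem_closedBall_zero_iff.2 (by linarith)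
  refine ⟨c, h1, fun h => h2 ⟨_, ⟨h, φ.mapsTo_inv hc⟩, φ.right_inv hc⟩, fun β r b0 b1 r0 r1 => ?_⟩
  obtain ⟨ρ, a1, a2, a3, a4, a5, a6⟩ := rad 2 h1 b0 b1 r0 r1
  have hR : ∀ y ∈ D, φ.toFun (((φ.trans ρ).trans φ.symm).toFun y) = ρ.toFun (φ.toFun y) :=
    fun y hy => φ.right_inv (ρ.mapsTo (φ.mapsTo hy))
  have hsub : closedBall c β ⊆ closedBall 0 1 := fun y hy => by
    rw [mem_closedBall_iff_norm] at hy
    rw [mem_closedBall_zero_iff]
    linarith [norm_sub_norm_le y c]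
  have himg : ∀ A ⊆ closedBall (0 : E3) 1, ((φ.trans ρ).trans φ.symm).toFun '' (φ.invFun '' A) =
      φ.invFun '' (ρ.toFun '' A) := by
    intro A hA
    rw [image_image, image_image]
    refine image_congr fun y hy => ?_
    simp only [ConHomeo.trans_toFun, ConHomeo.symm_toFun, Function.comp, φ.right_inv (hA hy)]
  refine ⟨(φ.trans ρ).trans φ.symm, fun b hb => ?_, fun y hy h => ?_, fun y hy h => ?_, ?_, ?_,
    fun i => ?_⟩
  · have : φ.toFun b ∈ sphere (0 : E3) 1 := hφB ▸ mem_image_of_mem _ hb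
    simp only [ConHomeo.trans_toFun, ConHomeo.symm_toFun, Function.comp, a1 this, id,
      φ.left_inv (hBD hb)]
  · rw [hR y hy, a2 _ (mem_closedBall_iff_norm.2 h)]
  · rw [hR y hy]; exact a5 _ (φ.mapsTo hy) h
  · rw [himg _ hsub, a3]
  · rw [himg _ (ball_subset_closedBall.trans hsub), a4]
  · have e1 := en_post_le (d := d i) (hq i).1 (hX i) l1 (hm i)
    have e2 := h3 β ρ.toFun b0 a6 i
    have e3 := en_post_le (d := d i) (f := ρ.toFun ∘ φ.toFun ∘ f i) (hq i).1 (hX i) l2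
      (ρ.mapsTo.comp (φ.mapsTo.comp (hm i)))
    have e4 : (L : ℝ≥0∞) ^ q i * (K : ℝ≥0∞) ^ q i ≤ (((max M 1) ^ p : ℝ≥0) : ℝ≥0∞) := by
      rw [← ENNReal.mul_rpow_of_nonneg _ _ (hq i).1, mul_comm]
      exact (ENNReal.rpow_le_rpow (by exact_mod_cast hKL) (hq i).1).trans
        (rpow_le_max_one (M := M) (hq i).1 (hq i).2)
    refine e3.trans ((mul_le_mul_right (e2.trans (mul_le_mul_right e1 _)) _).trans ?_)
    calc _ = (L : ℝ≥0∞) ^ q i * (K : ℝ≥0∞) ^ q i *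
          (Fintype.card ι * C * En (d i) (q i) (f i) (X i)) := by ring
      _ ≤ (((max M 1) ^ p : ℝ≥0) : ℝ≥0∞) * (Fintype.card ι * C * En (d i) (q i) (f i) (X i)) :=
          mul_le_mul_left e4 _
      _ = _ := by push_cast; ring

end P073.An2
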