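import Vale.Agent.P073Z.Cone

/-!
# The cone lemma in dimension three for maps which are PL everywhere
-/

open Set Metric Topology Filter MeasureTheory
open scoped ENNReal NNReal

namespace P073.An2

open P073 P073.Cone

/-- cone lemma, PL version: the reparametrisation is PL everywhere -/
def CONE3P : Prop := ∀ {p : ℝ}, 1 ≤ p → p < 3 → ∀ M : ℝ≥0, ∃ C : ℝ≥0,
  ∀ {D B : Set E3} {h : E3 → E3} {η : ℝ≥0∞}, BiChart 3 D B M → PLOn h D → 0 < η →
  ∃ Θ : ConHomeo D D, EqOn Θ.toFun id B ∧ En 3 p (h ∘ Θ.toFun) D ≤ C * En 2 p h B + η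

theorem cone3p : CONE3P := by
  intro p hp1 hp2 M
  have hp : p < ((2:ℕ):ℝ) + 1 := by push_cast; linarith
  obtain ⟨C, hC⟩ := transport enb (k := 2) (by linarith) hp M
  refine ⟨C, fun {D B h η} hD hh hη => ?_⟩
  obtain ⟨hBD, φ, hφB, l1, l2⟩ := hD
  obtain ⟨η', hη', H⟩ := hC φ hBD hφB l1 l2 η hη
  obtain ⟨u, hu, ⟨N, hN⟩, hE⟩ := model2 (k := 2) enb stm lip hp1 hp (g := h ∘ φ.invFun)
    ⟨hh.1.comp φ.cont_inv φ.mapsTo_inv, hh.2.comp φ.conical_inv φ.mapsTo_inv φ.cont_inv⟩ hη'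
  have hc : ConicalOn (Om u) (closedBall (0 : Fin 3 → ℝ) 1) :=
    ((OmN_pl u N).2.mono (locCone_closedBall_pi _ _).conicalSet (subset_univ _)).congr
      fun x _ => Om_eq_OmN_of_zero hN x
  let Ω := ConHomeo.ofCompact (isCompact_closedBall (0 : Fin 3 → ℝ) 1) (Om u)
    (continuous_Om (k := 2) hu).continuousOn (Om_injOn (k := 2) hu) hc (Om_image (k := 2) hu)
  have hΩ : ((φ.trans Ω).trans φ.symm).toFun = φ.invFun ∘ Om u ∘ φ.toFun := by
    simp only [ConHomeo.trans_toFun, ConHomeo.symm_toFun, Ω, ConHomeo.ofCompact_toFun]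
  refine ⟨(φ.trans Ω).trans φ.symm, ?_, ?_⟩
  · rw [hΩ]; exact eqOn_bdry φ hBD hφB u
  · rw [hΩ]; exact H h (Om u) hE

end P073.An2
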