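import Vale.Agent.P073Y.An2.Zeta

/-!
# Opening a hole in one box
-/

open Set Metric Topology Filter MeasureTheory
open scoped ENNReal NNReal

namespace P073.An2

open P073 P073.Cone

/-- the diagonal affine change of coordinates -/
noncomputable def diagHomeo {n : ℕ} (m sc : Fin n → ℝ) (h : ∀ i, sc i ≠ 0) :
    ConHomeo (univ : Set (Fin n → ℝ)) (univ : Set (Fin n → ℝ)) where
  toFun y i := (y i - m i) / sc i
  invFun η i := m i + sc i * η i
  mapsTo := mapsTo_univ _ _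
  mapsTo_inv := mapsTo_univ _ _
  left_inv y _ := funext fun i => by
    show m i + sc i * ((y i - m i) / sc i) = y i
    rw [mul_div_cancel₀ _ (h i)]; ring
  right_inv η _ := funext fun i => by
    show (m i + sc i * η i - m i) / sc i = η i
    rw [add_sub_cancel_left, mul_div_cancel_left₀ _ (h i)]
  cont := Continuous.continuousOn (by fun_prop)
  cont_inv := Continuous.continuousOn (by fun_prop)
  conical := by
    have hu : ConicalSet (univ : Set (Fin n → ℝ)) := IsOpen.conicalSet isOpen_univ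
    refine fun x hx => conicalWithinAt_pi (hu x hx) fun i => ?_
    have h1 : ConicalOn (fun y : Fin n → ℝ => (sc i)⁻¹ • (y i - m i)) univ :=
      ConicalOn.const_smul _ ((conicalOn_linear (LinearMap.proj i : (Fin n → ℝ) →ₗ[ℝ] ℝ) hu).sub
        (conicalOn_const _ hu))
    exact (h1.congr fun y _ => by simp [div_eq_inv_mul]) x hx

/-- the sizes of a box -/
def sz (N : ℝ) : E3 := ![N, N, 1]

/-- the open box with corner `lo` -/
def obox (N : ℝ) (lo : E3) : Set E3 := {y | ∀ i, lo i < y i ∧ y i < lo i + sz N i}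

/-- the half sizes of the slab -/
noncomputable def hs (N t : ℝ) : E3 := ![N / 2, N / 2, t]

/-- the linear map which normalises the slab -/
noncomputable def Dn (N t : ℝ) (v : E3) : E3 := fun i => v i / hs N t i

/-- the lateral distance to the sides -/
def ld (N : ℝ) (lo y : E3) : ℝ :=
  min (min (y 0 - lo 0) (lo 0 + N - y 0)) (min (y 1 - lo 1) (lo 1 + N - y 1))

/-- the taper -/
noncomputable def tp (N κ : ℝ) (lo y : E3) : ℝ := 2 / κ * max 0 (ld N lo y - κ / 2)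

theorem abs_ld_sub (N : ℝ) (lo y y' : E3) {e : ℝ} (h0 : |y 0 - y' 0| ≤ e) (h1 : |y 1 - y' 1| ≤ e) :
    |ld N lo y - ld N lo y'| ≤ e := by
  have key : ∀ u v l : ℝ, |u - v| ≤ e → |min (u - l) (l + N - u) - min (v - l) (l + N - v)| ≤ e := by
    intro u v l h
    refine (abs_min_sub_min_le_max _ _ _ _).trans (max_le ?_ ?_)
    · rwa [sub_sub_sub_cancel_right]
    · rwa [sub_sub_sub_cancel_left, abs_sub_comm]
  exact (abs_min_sub_min_le_max _ _ _ _).trans (max_le (key _ _ _ h0) (key _ _ _ h1))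

theorem abs_tp_sub {κ : ℝ} (hκ : 0 < κ) (N : ℝ) (lo y y' : E3) {e : ℝ} (h0 : |y 0 - y' 0| ≤ e)
    (h1 : |y 1 - y' 1| ≤ e) : |tp N κ lo y - tp N κ lo y'| ≤ 2 / κ * e := by
  unfold tp
  rw [← mul_sub, abs_mul, abs_of_pos (by positivity : 0 < 2 / κ)]
  refine mul_le_mul_of_nonneg_left ((abs_max_sub_max_le_max _ _ _ _).trans (max_le ?_ ?_))
    (by positivity)
  · rw [sub_self, abs_zero]; exact (abs_nonneg _).trans h0
  · rw [sub_sub_sub_cancel_right]; exact abs_ld_sub N lo y y' h0 h1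

theorem tp_nonneg {κ : ℝ} (hκ : 0 < κ) (N : ℝ) (lo y : E3) : 0 ≤ tp N κ lo y :=
  mul_nonneg (by positivity) (le_max_left _ _)

theorem tp_of_le {κ N : ℝ} {lo y : E3} (h : ld N lo y ≤ κ / 2) : tp N κ lo y = 0 := by
  unfold tp; rw [max_eq_left (by linarith), mul_zero]

theorem one_le_tp {κ N : ℝ} (hκ : 0 < κ) {lo y : E3} (h : κ ≤ ld N lo y) : 1 ≤ tp N κ lo y := by
  unfold tp
  rw [max_eq_right (by linarith), div_mul_eq_mul_div, one_le_div hκ]
  linarith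

theorem norm_le3 {v : E3} {e : ℝ} (h0 : |v 0| ≤ e) (h1 : |v 1| ≤ e) (h2 : |v 2| ≤ e) : ‖v‖ ≤ e := by
  refine (pi_norm_le_iff_of_nonneg ((abs_nonneg _).trans h0)).2 fun i => ?_
  fin_cases i
  exacts [h0, h1, h2]

/-- the vertical push -/
noncomputable def pf (N κ a b : ℝ) (lo y : E3) : E3 :=
  Function.update y 2 (med (zt (lo 2) κ a b) (y 2) (tp N κ lo y))

section push

variable {N κ a b : ℝ} {lo : E3}

theorem pf_zero (y : E3) : pf N κ a b lo y 0 = y 0 := by simp [pf]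

theorem pf_one (y : E3) : pf N κ a b lo y 1 = y 1 := by simp [pf]

theorem pf_two (y : E3) : pf N κ a b lo y 2 = med (zt (lo 2) κ a b) (y 2) (tp N κ lo y) := by
  simp [pf]

theorem pf_two_of_le (hz : Zp (lo 2) κ a b) {y : E3} (h : κ ≤ ld N lo y) :
    pf N κ a b lo y 2 = zt (lo 2) κ a b (y 2) := by
  rw [pf_two, med_of_near ((hz.near _).trans (one_le_tp hz.pos h))]

theorem exists_push (N : ℝ) (hz : Zp (lo 2) κ a b) :
    ∃ P : ConHomeo (univ : Set E3) (univ : Set E3), ∀ y, P.toFun y = pf N κ a b lo y := by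
  have hu : ConicalSet (univ : Set E3) := IsOpen.conicalSet isOpen_univ
  have hκ := hz.pos
  have hc := continuous_zt (lo 2) κ a b
  have h1 : ∀ m : Fin 3, ConicalOn (fun x : E3 => x m) univ := fun m =>
    conicalOn_linear (LinearMap.proj m : E3 →ₗ[ℝ] ℝ) hu
  have h2 : ∀ m : Fin 3, ConicalOn (fun x : E3 => min (x m - lo m) (lo m + N - x m)) univ :=
    fun m => ((h1 m).sub (conicalOn_const _ hu)).rmin ((conicalOn_const _ hu).sub (h1 m))
      (by fun_prop) (by fun_prop)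
  have c3 : Continuous (tp N κ lo) := by unfold tp ld; fun_prop
  have h3 : ConicalOn (tp N κ lo) univ := by
    unfold tp ld
    exact ConicalOn.const_smul (2 / κ) ((conicalOn_const 0 hu).rmax ((((h2 0).rmin (h2 1)
      (by fun_prop) (by fun_prop))).sub (conicalOn_const _ hu)) (by fun_prop) (by fun_prop))
  have h4 : ConicalOn (fun x : E3 => zt (lo 2) κ a b (x 2)) univ :=
    (conicalOn_zt _ _ _ _).comp (h1 2) (mapsTo_univ _ _) (by fun_prop)
  have htp : ∀ (x : E3) (s : ℝ), tp N κ lo (Function.update x 2 s) = tp N κ lo x := fun x s => by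
    simp [tp, ld]
  refine push_thm 2 (g := fun y => med (zt (lo 2) κ a b) (y 2) (tp N κ lo y))
    ⟨Continuous.continuousOn (by unfold med; fun_prop), ((h1 2).sub h3).rmax
      (h4.rmin ((h1 2).add h3) (by fun_prop) (by fun_prop)) (by fun_prop) (by fun_prop)⟩
    (fun x s s' h => ?_) fun x => ?_
  · simp only [Function.update_self, htp]
    exact max_lt_max (by linarith) (min_lt_min (hz.strictMono h) (by linarith))
  · simp only [Function.update_self, htp]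
    refine Continuous.surjective (by unfold med; fun_prop) ?_ ?_
    · refine tendsto_id.congr' ?_
      filter_upwards [eventually_ge_atTop (lo 2 + 1)] with s hs
      exact (med_of_eq (tp_nonneg hκ _ _ _) (hz.of_ge hs)).symm
    · refine tendsto_id.congr' ?_
      filter_upwards [eventually_le_atBot (lo 2)] with s hs
      exact (med_of_eq (tp_nonneg hκ _ _ _) (hz.of_le hs)).symm

theorem pf_out (hz : Zp (lo 2) κ a b) {y : E3} (hy : y ∉ obox N lo) : pf N κ a b lo y = y := by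
  have hκ := hz.pos
  simp only [obox, mem_ofPred_eq, not_forall, not_and_or, not_lt] at hy
  obtain ⟨i, hi⟩ := hy
  have h : med (zt (lo 2) κ a b) (y 2) (tp N κ lo y) = y 2 := by
    fin_cases i
    · have hi' : y 0 ≤ lo 0 ∨ lo 0 + N ≤ y 0 := hi
      rw [tp_of_le ((min_le_left _ _).trans (min_le_iff.2 (hi'.imp (fun h => by linarith)
        fun h => by linarith))), med_zero]
    · have hi' : y 1 ≤ lo 1 ∨ lo 1 + N ≤ y 1 := hi
      rw [tp_of_le ((min_le_right _ _).trans (min_le_iff.2 (hi'.imp (fun h => by linarith)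
        fun h => by linarith))), med_zero]
    · have hi' : y 2 ≤ lo 2 ∨ lo 2 + 1 ≤ y 2 := hi
      exact med_of_eq (tp_nonneg hκ _ _ _) (hi'.elim hz.of_le hz.of_ge)
  rw [pf, h, Function.update_eq_self]

theorem pf_le (hκ : 0 < κ) {w w' : E3} {A B e : ℝ} (h0 : |w 0 - w' 0| ≤ A)
    (h1 : |w 1 - w' 1| ≤ A) (h2 : |w 2 - w' 2| ≤ B) (e0 : A ≤ e) (e1 : B + 2 / κ * A ≤ e)
    (e2 : |zt (lo 2) κ a b (w 2) - zt (lo 2) κ a b (w' 2)| ≤ e) :
    ‖pf N κ a b lo w - pf N κ a b lo w'‖ ≤ e := by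
  refine norm_le3 ?_ ?_ ?_
  · rw [Pi.sub_apply, pf_zero, pf_zero]; exact h0.trans e0
  · rw [Pi.sub_apply, pf_one, pf_one]; exact h1.trans e0
  · rw [Pi.sub_apply, pf_two, pf_two]
    exact (abs_med_sub _ _ _ _ _).trans (max_le e2
      ((add_le_add h2 (abs_tp_sub hκ N lo w w' h0 h1)).trans e1))

theorem pf_off (hz : Zp (lo 2) κ a b) {y y' : E3}
    (h : (y 2 ≤ a ∧ y' 2 ≤ a) ∨ (b ≤ y 2 ∧ b ≤ y' 2)) :
    ‖pf N κ a b lo y - pf N κ a b lo y'‖ ≤ 3 / κ * ‖y - y'‖ := by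
  have hκ := hz.pos
  have hk1 : 1 ≤ 1 / κ := by rw [one_le_div hκ]; linarith [hz.lo, hz.lt, hz.hi]
  have d := abs_le_norm (y - y')
  have e : 3 / κ * ‖y - y'‖ = 1 / κ * ‖y - y'‖ + 2 / κ * ‖y - y'‖ := by ring
  have e1 : ‖y - y'‖ ≤ 1 / κ * ‖y - y'‖ := le_mul_of_one_le_left (norm_nonneg _) hk1
  have e2 : 0 ≤ 2 / κ * ‖y - y'‖ := by positivity
  exact pf_le hκ (d 0) (d 1) (d 2) (by linarith) (by linarith)
    ((hz.abs_le_off h).trans ((d 2).trans (by linarith)))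

theorem pf_inv (hz : Zp (lo 2) κ a b) (w w' : E3) :
    ‖w - w'‖ ≤ 3 / κ ^ 2 * ‖pf N κ a b lo w - pf N κ a b lo w'‖ := by
  have hκ := hz.pos
  have hκ1 : κ ≤ 1 := by linarith [hz.lo, hz.lt, hz.hi]
  have hk1 : 1 ≤ 1 / κ := by rwa [one_le_div hκ]
  have d := abs_le_norm (pf N κ a b lo w - pf N κ a b lo w')
  have l0 := d 0
  have l1 := d 1
  have l2 := d 2
  rw [Pi.sub_apply, pf_zero, pf_zero] at l0
  rw [Pi.sub_apply, pf_one, pf_one] at l1
  rw [Pi.sub_apply, pf_two, pf_two] at l2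
  have l3 := abs_tp_sub hκ N lo w w' l0 l1
  clear d
  generalize ‖pf N κ a b lo w - pf N κ a b lo w'‖ = δ at *
  set ζ := zt (lo 2) κ a b
  have δ0 : 0 ≤ δ := (abs_nonneg _).trans l0
  have l4 := abs_med_sub ζ (w' 2) (w' 2) (tp N κ lo w) (tp N κ lo w')
  rw [sub_self, sub_self, abs_zero, zero_add, max_eq_right (abs_nonneg _)] at l4
  have l5 : κ * |w 2 - w' 2| ≤ |med ζ (w 2) (tp N κ lo w) - med ζ (w' 2) (tp N κ lo w)| := by
    rcases le_total (w 2) (w' 2) with h | h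
    · rw [abs_sub_comm, abs_of_nonneg (sub_nonneg.2 h), abs_sub_comm]
      exact (le_med_sub hκ1 h (hz.bounds h).1 _).trans (le_abs_self _)
    · rw [abs_of_nonneg (sub_nonneg.2 h)]
      exact (le_med_sub hκ1 h (hz.bounds h).1 _).trans (le_abs_self _)
  have l6 := abs_sub_le (med ζ (w 2) (tp N κ lo w)) (med ζ (w' 2) (tp N κ lo w'))
    (med ζ (w' 2) (tp N κ lo w))
  rw [abs_sub_comm (med ζ (w' 2) (tp N κ lo w'))] at l6
  have g1 : δ ≤ 1 / κ * δ := le_mul_of_one_le_left δ0 hk1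
  have g2 : 3 / κ * δ = 1 / κ * δ + 2 / κ * δ := by ring
  have g3 : 3 / κ * δ ≤ 3 / κ ^ 2 * δ :=
    mul_le_mul_of_nonneg_right (div_le_div_of_nonneg_left (by norm_num) (by positivity)
      (by nlinarith)) δ0
  have g4 : 0 ≤ 2 / κ * δ := by positivity
  refine norm_le3 (l0.trans (by linarith)) (l1.trans (by linarith)) ?_
  refine le_of_mul_le_mul_left ?_ hκ
  rw [show κ * (3 / κ ^ 2 * δ) = 3 / κ * δ by field_simp]
  change κ * |w 2 - w' 2| ≤ _
  linarith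

end push

section norm

variable {N t : ℝ}

theorem hs_pos (hN : 1 ≤ N) (ht : 0 < t) (i : Fin 3) : 0 < hs N t i := by
  have : 0 < N := by linarith
  fin_cases i <;> simp [hs] <;> positivity

theorem norm_le_Dn (hN : 1 ≤ N) (ht : 0 < t) (ht' : t ≤ 1 / 4) (v : E3) :
    ‖v‖ ≤ N * ‖Dn N t v‖ := by
  refine (pi_norm_le_iff_of_nonneg (by positivity)).2 fun i => ?_
  have h1 : hs N t i ≤ N := by fin_cases i <;> simp [hs] <;> linarith
  have h2 : v i = hs N t i * Dn N t v i := by rw [Dn, mul_div_cancel₀ _ (hs_pos hN ht i).ne']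
  rw [h2, norm_mul, Real.norm_of_nonneg (hs_pos hN ht i).le]
  exact mul_le_mul h1 (norm_le_pi_norm _ i) (norm_nonneg _) (by linarith)

theorem norm_Dn_le (hN : 1 ≤ N) (ht : 0 < t) (ht' : t ≤ 1 / 4) (v : E3) :
    ‖Dn N t v‖ ≤ 1 / t * ‖v‖ := by
  refine (pi_norm_le_iff_of_nonneg (by positivity)).2 fun i => ?_
  have h1 : t ≤ hs N t i := by fin_cases i <;> simp [hs] <;> linarith
  rw [Dn, norm_div, Real.norm_of_nonneg (hs_pos hN ht i).le, one_div, ← div_eq_inv_mul]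
  exact div_le_div₀ (norm_nonneg _) (norm_le_pi_norm _ i) ht h1

theorem abs_le_Dn (hN : 1 ≤ N) (ht : 0 < t) (v : E3) (i : Fin 3) :
    |v i| ≤ hs N t i * ‖Dn N t v‖ := by
  have h := abs_le_norm (Dn N t v) i
  rwa [Dn, abs_div, abs_of_pos (hs_pos hN ht i), div_le_iff₀' (hs_pos hN ht i)] at h

end norm

/-- the push in normalised coordinates -/
theorem pf_Dn {N κ t a b : ℝ} {lo : E3} (hN : 1 ≤ N) (ht : 0 < t) (ht' : t ≤ 1 / 4)
    (hz : Zp (lo 2) κ a b) (hab : t ≤ b - a) (w w' : E3) :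
    ‖pf N κ a b lo w - pf N κ a b lo w'‖ ≤ 2 * (N / κ * ‖Dn N t (w - w')‖) := by
  have hκ := hz.pos
  have hNk : N ≤ N / κ := by rw [le_div_iff₀ hκ]; nlinarith [hz.lo, hz.lt, hz.hi]
  have l0 : |w 0 - w' 0| ≤ N / 2 * ‖Dn N t (w - w')‖ := abs_le_Dn hN ht (w - w') 0
  have l1 : |w 1 - w' 1| ≤ N / 2 * ‖Dn N t (w - w')‖ := abs_le_Dn hN ht (w - w') 1
  have l2 : |w 2 - w' 2| ≤ t * ‖Dn N t (w - w')‖ := abs_le_Dn hN ht (w - w') 2
  have q0 := norm_nonneg (Dn N t (w - w'))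
  generalize ‖Dn N t (w - w')‖ = δ at *
  have q1 : N * δ ≤ N / κ * δ := mul_le_mul_of_nonneg_right hNk q0
  have q2 : δ ≤ N * δ := le_mul_of_one_le_left q0 hN
  have q3 : t * δ ≤ δ := mul_le_of_le_one_left q0 (by linarith)
  refine pf_le hκ l0 l1 l2 (by linarith) ?_ ((hz.abs_le _ _).trans ?_)
  · rw [show 2 / κ * (N / 2 * δ) = N / κ * δ by ring]
    linarith
  · refine (mul_le_mul (one_div_le_one_div_of_le ht hab) l2 (abs_nonneg _) (by positivity)).trans ?_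
    rw [← mul_assoc, one_div_mul_cancel ht.ne', one_mul]
    linarith

/-- the radial map in the slab -/
theorem exists_slab {N κ t β : ℝ} {lo c : E3} (hN : 1 ≤ N) (hκ : 0 < κ) (hκ' : κ ≤ 1 / 8)
    (ht : 0 < t) (hβ : 0 < β) (hβ' : β ≤ 1 / 8) (c0 : |c 0 - (lo 0 + N / 2)| ≤ N / 4)
    (c1 : |c 1 - (lo 1 + N / 2)| ≤ N / 4) :
    ∃ R : ConHomeo (univ : Set E3) (univ : Set E3),
      (∀ y, (y 0 ≤ lo 0 ∨ lo 0 + N ≤ y 0) ∨ (y 1 ≤ lo 1 ∨ lo 1 + N ≤ y 1) ∨ t ≤ |y 2 - c 2| →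
        R.toFun y = y) ∧
      (∀ y, ‖Dn N t (y - c)‖ ≤ β →
        R.toFun y 0 = lo 0 + N / 2 + (N / 2 - κ) * (Dn N t (y - c) 0 / β) ∧
        R.toFun y 1 = lo 1 + N / 2 + (N / 2 - κ) * (Dn N t (y - c) 1 / β) ∧
        R.toFun y 2 = c 2 + t * (1 - 2 * κ / N) * (Dn N t (y - c) 2 / β)) ∧
      (∀ (m : ℝ) (y y' : E3), m ≤ 1 → m ≤ ‖Dn N t (y - c)‖ → m ≤ ‖Dn N t (y' - c)‖ →
        ‖Dn N t (R.toFun y - R.toFun y')‖ ≤ 40 / max m β * ‖Dn N t (y - y')‖) ∧
      ∀ y y', ‖Dn N t (y - y')‖ ≤ 3 / (2 * κ / N) * ‖Dn N t (R.toFun y - R.toFun y')‖ := by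
  have hN0 : 0 < N := by linarith
  obtain ⟨r, hr⟩ : ∃ r : ℝ, r = 1 - 2 * κ / N := ⟨_, rfl⟩
  have r0 : 0 < 2 * κ / N := by positivity
  have r1 : 2 * κ / N ≤ 1 / 4 := by rw [div_le_iff₀ hN0]; linarith
  have r2 : N / 2 * r = N / 2 - κ := by rw [hr]; field_simp
  let m : E3 := ![lo 0 + N / 2, lo 1 + N / 2, c 2]
  let ν := diagHomeo m (hs N t) fun i => (hs_pos hN ht i).ne'
  have hν : ∀ y y', ν.toFun y - ν.toFun y' = Dn N t (y - y') := fun y y' => funext fun i => by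
    simp only [ν, diagHomeo, Dn, Pi.sub_apply]; ring
  have n0 : ∀ y, ν.toFun y 0 = (y 0 - (lo 0 + N / 2)) / (N / 2) := fun y => rfl
  have n1 : ∀ y, ν.toFun y 1 = (y 1 - (lo 1 + N / 2)) / (N / 2) := fun y => rfl
  have n2 : ∀ y, ν.toFun y 2 = (y 2 - c 2) / t := fun y => rfl
  have i0 : ∀ η, ν.invFun η 0 = lo 0 + N / 2 + N / 2 * η 0 := fun y => rfl
  have i1 : ∀ η, ν.invFun η 1 = lo 1 + N / 2 + N / 2 * η 1 := fun y => rfl
  have i2 : ∀ η, ν.invFun η 2 = c 2 + t * η 2 := fun y => rfl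
  have hνc : ‖ν.toFun c‖ ≤ 1 / 2 := by
    refine norm_le3 ?_ ?_ (by rw [n2]; simp)
    · rw [n0, abs_div, abs_of_pos (half_pos hN0), div_le_iff₀ (half_pos hN0)]; linarith
    · rw [n1, abs_div, abs_of_pos (half_pos hN0), div_le_iff₀ (half_pos hN0)]; linarith
  obtain ⟨ρ, a1, a2, a3, a4⟩ := rad2 2 (r := r) hνc hβ hβ' (by linarith) (by linarith)
  have hR : ∀ y, ((ν.trans ρ).trans ν.symm).toFun y = ν.invFun (ρ.toFun (ν.toFun y)) :=
    fun y => rfl
  have hD : ∀ y y', Dn N t (((ν.trans ρ).trans ν.symm).toFun y -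
      ((ν.trans ρ).trans ν.symm).toFun y') = ρ.toFun (ν.toFun y) - ρ.toFun (ν.toFun y') :=
    fun y y' => by rw [← hν, hR, hR, ν.right_inv (mem_univ _), ν.right_inv (mem_univ _)]
  have hlat : ∀ (y : E3) (i : Fin 3), ν.toFun y i = (y i - (lo i + N / 2)) / (N / 2) →
      (y i ≤ lo i ∨ lo i + N ≤ y i) → 1 ≤ ‖ν.toFun y‖ := fun y i e h => by
    refine le_trans ?_ (abs_le_norm _ i)
    rw [e, abs_div, abs_of_pos (half_pos hN0), one_le_div (half_pos hN0), le_abs]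
    rcases h with h | h
    · right; linarith
    · left; linarith
  refine ⟨(ν.trans ρ).trans ν.symm, fun y hy => ?_, fun y hy => ?_, fun μ y y' hμ hy hy' => ?_,
    fun y y' => ?_⟩
  · rw [hR, a1 _ ?_, ν.left_inv (mem_univ y)]
    rcases hy with h | h | h
    · exact hlat y 0 (n0 y) h
    · exact hlat y 1 (n1 y) h
    · refine le_trans ?_ (abs_le_norm _ 2)
      rwa [n2, abs_div, abs_of_pos ht, one_le_div ht]
  · rw [hR, a2 _ (by rwa [hν]), hν, i0, i1, i2, ← r2, ← hr]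
    simp only [Pi.smul_apply, smul_eq_mul]
    exact ⟨by ring, by ring, by ring⟩
  · rw [hD, ← hν y]
    exact a3 μ _ _ hμ (by rwa [hν]) (by rwa [hν])
  · rw [hD, ← hν y, show 2 * κ / N = 1 - r by rw [hr]; ring]
    exact a4 _ _

/-- the centres which are allowed in the box with corner `lo` -/
def ctr (N : ℝ) (lo : E3) : Set E3 :=
  {c | |c 0 - (lo 0 + N / 2)| ≤ N / 4 ∧ |c 1 - (lo 1 + N / 2)| ≤ N / 4 ∧
    |c 2 - (lo 2 + 1 / 2)| ≤ 1 / 6}

/-- the properties of the map which opens a hole in the box with corner `lo` -/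
structure IsHole (N κ t β : ℝ) (lo c : E3) (Φ : E3 → E3) : Prop where
  out : ∀ y, y ∉ obox N lo → Φ y = y
  cav : ∀ y, (∀ i, lo i + κ ≤ Φ y i ∧ Φ y i ≤ lo i + sz N i - κ) → ‖Dn N t (y - c)‖ ≤ β
  lat : ∀ y, t ≤ |y 2 - c 2| → Φ y 0 = y 0 ∧ Φ y 1 = y 1 ∧ (κ ≤ ld N lo y →
    (y 2 ≤ c 2 → Φ y 2 ≤ lo 2 + κ) ∧ (c 2 ≤ y 2 → lo 2 + 1 - κ ≤ Φ y 2))
  off : ∀ y y', (y 2 ≤ c 2 - t ∧ y' 2 ≤ c 2 - t) ∨ (c 2 + t ≤ y 2 ∧ c 2 + t ≤ y' 2) →
    ‖Φ y - Φ y'‖ ≤ 3 / κ * ‖y - y'‖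
  two : ∀ (m : ℝ) (y y' : E3), m ≤ 1 → m ≤ ‖Dn N t (y - c)‖ → m ≤ ‖Dn N t (y' - c)‖ →
    ‖Φ y - Φ y'‖ ≤ 80 * N / κ / max m β * ‖Dn N t (y - y')‖
  inv : ∀ y y', ‖y - y'‖ ≤ 5 * N ^ 2 / (t * κ ^ 3) * ‖Φ y - Φ y'‖

/-- opening a hole in one box -/
theorem hole1 {N κ t β : ℝ} {lo c : E3} (hN : 1 ≤ N) (hκ : 0 < κ) (hκ' : κ ≤ 1 / 12) (ht : 0 < t)
    (ht' : t ≤ 1 / 4) (hβ : 0 < β) (hβ' : β ≤ 1 / 8) (hc : c ∈ ctr N lo) :
    ∃ Φ : ConHomeo (univ : Set E3) (univ : Set E3), IsHole N κ t β lo c Φ.toFun := by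
  obtain ⟨c0, c1, c2⟩ := hc
  have hN0 : 0 < N := by linarith
  obtain ⟨R, a1, a2, a3, a4⟩ := exists_slab hN hκ (by linarith) ht hβ hβ' c0 c1
  have r0 : 0 < 2 * κ / N := by positivity
  have r1 : 2 * κ / N ≤ 1 / 4 := by rw [div_le_iff₀ hN0]; linarith
  obtain ⟨u, hu⟩ : ∃ u : ℝ, u = t * (1 - 2 * κ / N) := ⟨_, rfl⟩
  rw [← hu] at a2
  have u0 : t / 2 ≤ u := by nlinarith
  have u1 : u ≤ t := by nlinarith
  clear r0 r1 hu c0 c1
  rw [abs_le] at c2
  have hz : Zp (lo 2) κ (c 2 - u) (c 2 + u) :=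
    ⟨hκ, by linarith [c2.1], by linarith, by linarith [c2.2]⟩
  obtain ⟨P, hP⟩ := exists_push N hz
  have hΦ : ∀ y, (R.trans P).toFun y = pf N κ (c 2 - u) (c 2 + u) lo (R.toFun y) :=
    fun y => hP _
  refine ⟨R.trans P, fun y hy => ?_, fun y hy => ?_, fun y hy => ?_, fun y y' h => ?_,
    fun μ y y' hμ hy hy' => ?_, fun y y' => ?_⟩
  · rw [hΦ, a1 y ?_, pf_out hz hy]
    simp only [obox, mem_ofPred_eq, not_forall, not_and_or, not_lt] at hy
    obtain ⟨i, hi⟩ := hy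
    fin_cases i
    · exact Or.inl hi
    · exact Or.inr (Or.inl hi)
    · have hi' : y 2 ≤ lo 2 ∨ lo 2 + 1 ≤ y 2 := hi
      refine Or.inr (Or.inr (le_abs.2 ?_))
      rcases hi' with h | h
      · right; linarith [c2.1]
      · left; linarith [c2.2]
  · generalize hw : (R.trans P).toFun y = w at hy
    have s0 : ∀ i, 0 < sz N i / 2 - κ := fun i => by fin_cases i <;> simp [sz] <;> linarith
    let η : E3 := fun i => (w i - (lo i + sz N i / 2)) / (sz N i / 2 - κ)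
    have hη : ∀ i, |η i| ≤ 1 := fun i => by
      rw [abs_div, abs_of_pos (s0 i), div_le_one (s0 i), abs_le]
      exact ⟨by linarith [(hy i).1], by linarith [(hy i).2]⟩
    have hwη : ∀ i, w i = lo i + sz N i / 2 + (sz N i / 2 - κ) * η i := fun i => by
      rw [mul_div_cancel₀ _ (s0 i).ne']; ring
    let y' : E3 := fun i => c i + hs N t i * (β * η i)
    have hD : ∀ i, Dn N t (y' - c) i = β * η i := fun i => by
      rw [Dn, Pi.sub_apply, add_sub_cancel_left, mul_div_cancel_left₀ _ (hs_pos hN ht i).ne']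
    have hn : ‖Dn N t (y' - c)‖ ≤ β := by
      refine (pi_norm_le_iff_of_nonneg hβ.le).2 fun i => ?_
      rw [hD, Real.norm_eq_abs, abs_mul, abs_of_pos hβ]
      exact mul_le_of_le_one_right hβ.le (hη i)
    obtain ⟨b0, b1, b2⟩ := a2 y' hn
    rw [hD, mul_div_cancel_left₀ _ hβ.ne'] at b0 b1 b2
    have b0' : R.toFun y' 0 = w 0 := b0.trans (hwη 0).symm
    have b1' : R.toFun y' 1 = w 1 := b1.trans (hwη 1).symm
    have e : (R.trans P).toFun y' = w := by
      rw [hΦ]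
      funext i
      fin_cases i
      · exact (pf_zero _).trans b0'
      · exact (pf_one _).trans b1'
      · have h0 : lo 0 + κ ≤ w 0 ∧ w 0 ≤ lo 0 + N - κ := hy 0
        have h1 : lo 1 + κ ≤ w 1 ∧ w 1 ≤ lo 1 + N - κ := hy 1
        have h2 := abs_le.1 (hη 2)
        refine (pf_two_of_le hz ?_).trans ?_
        · unfold ld
          rw [b0', b1']
          exact le_min (le_min (by linarith [h0.1]) (by linarith [h0.2]))
            (le_min (by linarith [h1.1]) (by linarith [h1.2]))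
        · rw [b2, hz.of_mid (by nlinarith [h2.1]) (by nlinarith [h2.2])]
          refine Eq.trans ?_ (hwη 2).symm
          have : u ≠ 0 := by linarith
          show _ = lo 2 + 1 / 2 + (1 / 2 - κ) * η 2
          rw [show c 2 + u - (c 2 - u) = 2 * u by ring]
          field_simp
          ring
    rwa [(R.trans P).injOn (mem_univ y) (mem_univ y') (hw.trans e.symm)]
  · rw [hΦ, a1 y (Or.inr (Or.inr hy))]
    refine ⟨pf_zero y, pf_one y, fun h => ?_⟩
    rw [pf_two_of_le hz h]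
    refine ⟨fun h' => ?_, fun h' => ?_⟩
    · rw [abs_of_nonpos (by linarith)] at hy
      refine (hz.strictMono.monotone (by linarith : y 2 ≤ c 2 - u)).trans (le_of_eq ?_)
      rw [hz.of_mid le_rfl hz.lt.le]; ring
    · rw [abs_of_nonneg (by linarith)] at hy
      refine le_trans (le_of_eq ?_) (hz.strictMono.monotone (by linarith : c 2 + u ≤ y 2))
      rw [hz.of_mid hz.lt.le le_rfl, div_mul_cancel₀ _ (by linarith)]; ring
  · rw [hΦ, hΦ, a1 y (Or.inr (Or.inr (le_abs.2 (h.elim (fun h => Or.inr (by linarith [h.1]))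
      fun h => Or.inl (by linarith [h.1]))))), a1 y' (Or.inr (Or.inr (le_abs.2 (h.elim
      (fun h => Or.inr (by linarith [h.2])) fun h => Or.inl (by linarith [h.2])))))]
    exact pf_off hz (h.imp (fun h => ⟨by linarith [h.1], by linarith [h.2]⟩)
      fun h => ⟨by linarith [h.1], by linarith [h.2]⟩)
  · rw [hΦ, hΦ]
    refine (pf_Dn hN ht ht' hz (by linarith) _ _).trans ?_
    calc _ ≤ 2 * (N / κ * (40 / max μ β * ‖Dn N t (y - y')‖)) := by
          have := a3 μ y y' hμ hy hy'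
          gcongr
      _ = _ := by ring
  · rw [hΦ, hΦ]
    have e4 := pf_inv (N := N) hz (R.toFun y) (R.toFun y')
    generalize ‖pf N κ (c 2 - u) (c 2 + u) lo (R.toFun y) -
      pf N κ (c 2 - u) (c 2 + u) lo (R.toFun y')‖ = δ at e4 ⊢
    have δ0 : 0 ≤ δ := by
      by_contra h
      have : 3 / κ ^ 2 * δ < 0 := mul_neg_of_pos_of_neg (by positivity) (not_le.1 h)
      linarith [norm_nonneg (R.toFun y - R.toFun y')]
    calc _ ≤ N * (3 / (2 * κ / N) * (1 / t * (3 / κ ^ 2 * δ))) :=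
          (norm_le_Dn hN ht ht' _).trans (mul_le_mul_of_nonneg_left ((a4 y y').trans
            (mul_le_mul_of_nonneg_left ((norm_Dn_le hN ht ht' _).trans
              (mul_le_mul_of_nonneg_left e4 (by positivity))) (by positivity))) hN0.le)
      _ = 9 / 2 * N ^ 2 / (t * κ ^ 3) * δ := by field_simp; ring
      _ ≤ _ := by gcongr; norm_num

end P073.An2
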