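import Vale.Agent.P073Y.An2.Radial
import Vale.Agent.P073Y.Bd.Map

/-!
# The radial chart as a homeomorphism of the space, with two point bounds
-/

open Set Metric Topology Filter MeasureTheory
open scoped ENNReal NNReal

namespace P073.An2

open P073 P073.Cone

variable {n k : ℕ}

/-- an expanding bound on finitely many pieces gives a global bound -/
theorem anti_of_pieces {f : (Fin n → ℝ) → Fin n → ℝ} (hf : Function.Injective f) {ι : Type}
    (s : Finset ι) (S : ι → Set (Fin n → ℝ)) {K : ℝ} (hK : 0 ≤ K)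
    (hc : ∀ i ∈ s, IsClosed (f '' S i)) (hu : ∀ y, ∃ i ∈ s, y ∈ f '' S i)
    (h : ∀ i ∈ s, ∀ x ∈ S i, ∀ x' ∈ S i, ‖x - x'‖ ≤ K * ‖f x - f x'‖) (x x' : Fin n → ℝ) :
    ‖x - x'‖ ≤ K * ‖f x - f x'‖ := by
  classical
  have hl := Function.leftInverse_invFun hf
  refine (pi_norm_le_iff_of_nonneg (by positivity)).2 fun m => ?_
  have key : LipschitzOnWith ⟨K, hK⟩ (fun y => Function.invFun f y m) univ := by
    refine Bd.lipg.1 convex_univ ⟨s.image fun i => f '' S i, fun Y hY => ?_, fun y _ => ?_⟩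
    · obtain ⟨i, hi, rfl⟩ := Finset.mem_image.1 hY
      refine ⟨hc i hi, LipschitzOnWith.of_dist_le_mul ?_⟩
      rintro _ ⟨a, ha, rfl⟩ _ ⟨b, hb, rfl⟩
      rw [hl a, hl b, dist_eq_norm, dist_eq_norm]
      exact (norm_le_pi_norm (a - b) m).trans (h i hi a ha b hb)
    · obtain ⟨i, hi, hy⟩ := hu y
      exact mem_iUnion₂.2 ⟨_, Finset.mem_image_of_mem _ hi, hy⟩
  have := key.dist_le_mul (f x) (mem_univ _) (f x') (mem_univ _)
  rwa [hl x, hl x', dist_eq_norm, dist_eq_norm] at this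

/-- an expanding surjective PL map is a PL homeomorphism -/
noncomputable def ofAnti {f : (Fin n → ℝ) → Fin n → ℝ} (hc : Continuous f)
    (hcon : ConicalOn f univ) (hs : Function.Surjective f) {K : ℝ} (hK : 0 ≤ K)
    (h : ∀ x x', ‖x - x'‖ ≤ K * ‖f x - f x'‖) :
    ConHomeo (univ : Set (Fin n → ℝ)) (univ : Set (Fin n → ℝ)) where
  toFun := f
  invFun := Function.surjInv hs
  mapsTo := mapsTo_univ _ _
  mapsTo_inv := mapsTo_univ _ _
  left_inv := fun x _ => by
    have := h (Function.surjInv hs (f x)) x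
    rw [Function.surjInv_eq hs, sub_self, norm_zero, mul_zero] at this
    exact sub_eq_zero.1 (norm_le_zero_iff.1 this)
  right_inv := fun y _ => Function.surjInv_eq hs y
  cont := hc.continuousOn
  cont_inv := (LipschitzWith.of_dist_le_mul (K := ⟨K, hK⟩) fun y y' => by
    have := h (Function.surjInv hs y) (Function.surjInv hs y')
    rwa [Function.surjInv_eq hs, Function.surjInv_eq hs, ← dist_eq_norm, ← dist_eq_norm]
      at this).continuous.continuousOn
  conical := hcon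

theorem Th_anti {t u : ℝ} (hu : 0 ≤ u) (htu : u < t) {x y : Fin (k + 1) → ℝ} (x1 : 1 / 2 ≤ ‖x‖)
    (x2 : ‖x‖ ≤ 1) (y1 : 1 / 2 ≤ ‖y‖) (y2 : ‖y‖ ≤ 1) :
    (t - u) * ‖x - y‖ ≤ ‖Th t u x - Th t u y‖ := by
  have ht : 0 < t := hu.trans_lt htu
  have h1 : (t - u) * |‖x‖ - ‖y‖| ≤ ‖Th t u x - Th t u y‖ := by
    refine le_trans (le_of_eq ?_) (abs_norm_sub_norm_le _ _)
    rw [norm_Th ht.le hu x1 x2, norm_Th ht.le hu y1 y2, ← abs_of_pos (sub_pos.2 htu), ← abs_mul]
    congr 1; ring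
  have key : ∀ {x y : Fin (k + 1) → ℝ} (m : Fin (k + 1)), ‖x‖ ≤ 1 → ‖y‖ ≤ 1 → y m ≤ x m →
      t * (x m - y m) ≤ ‖Th t u x - Th t u y‖ + u * |‖x‖ - ‖y‖| := by
    intro x y m x2 y2 h
    have a1 := (le_abs_self _).trans (abs_le_norm (Th t u x - Th t u y) m)
    rw [Pi.sub_apply, Th_apply x2, Th_apply y2] at a1
    have a2 := cl_mono (1 - ‖x‖) h
    have a3 := abs_cl_sub (y m) (1 - ‖y‖) (y m) (1 - ‖x‖)
    rw [sub_self, abs_zero, max_eq_right (abs_nonneg _),
      show 1 - ‖y‖ - (1 - ‖x‖) = ‖x‖ - ‖y‖ by ring] at a3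
    have a4 := (le_abs_self _).trans a3
    nlinarith [mul_le_mul_of_nonneg_left a2 hu, mul_le_mul_of_nonneg_left a4 hu]
  have h2 : t * ‖x - y‖ ≤ ‖Th t u x - Th t u y‖ + u * |‖x‖ - ‖y‖| := by
    obtain ⟨m, hm⟩ := exists_abs_eq_norm (x - y)
    rw [← hm, Pi.sub_apply]
    rcases le_total (y m) (x m) with h | h
    · rw [abs_of_nonneg (sub_nonneg.2 h)]; exact key m x2 y2 h
    · rw [abs_sub_comm, abs_of_nonneg (sub_nonneg.2 h), norm_sub_rev, abs_sub_comm]
      exact key m y2 x2 h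
  refine le_of_mul_le_mul_left ?_ ht
  nlinarith [mul_le_mul_of_nonneg_left h1 hu, mul_le_mul_of_nonneg_left h2 (sub_pos.2 htu).le]

theorem tt_step {a : ℝ} {N j : ℕ} (hj : j ≤ N) :
    (tt (fun i => if i < N then a else 0) j - a) * 2 ^ j = 1 - a := by
  induction j with
  | zero => simp [tt]
  | succ j ih =>
    have := ih (Nat.le_of_succ_le hj)
    simp only [tt, if_pos (Nat.lt_of_succ_le hj)]
    rw [← this]; ring

theorem Om_surj {u : ℕ → ℝ} (hu : Adm u) :
    Function.Surjective (Om u : (Fin (k + 1) → ℝ) → Fin (k + 1) → ℝ) := fun y => by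
  rcases le_total ‖y‖ 1 with h | h
  · obtain ⟨x, -, hx⟩ := (Om_image hu).ge (mem_closedBall_zero_iff.2 h)
    exact ⟨x, hx⟩
  · exact ⟨y, Om_of_one_le u h⟩

theorem Om_inj {u : ℕ → ℝ} (hu : Adm u) :
    Function.Injective (Om u : (Fin (k + 1) → ℝ) → Fin (k + 1) → ℝ) := by
  have key : ∀ x y : Fin (k + 1) → ℝ, ‖x‖ ≤ 1 → Om u x = Om u y → x = y := by
    intro x y hx h
    rcases le_or_gt ‖y‖ 1 with hy | hy
    · exact Om_injOn hu (mem_closedBall_zero_iff.2 hx) (mem_closedBall_zero_iff.2 hy) h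
    · have := mem_closedBall_zero_iff.1 (Om_mapsTo hu (mem_closedBall_zero_iff.2 hx))
      rw [h, Om_of_one_le u hy.le] at this
      linarith
  intro x y h
  rcases le_total ‖x‖ 1 with hx | hx
  · exact key x y hx h
  rcases le_total ‖y‖ 1 with hy | hy
  · exact (key y x hy h.symm).symm
  rwa [Om_of_one_le u hx, Om_of_one_le u hy] at h

theorem Om_step_anti {a : ℝ} (h0 : 0 ≤ a) (h1 : a < 1) (N : ℕ) (x x' : Fin (k + 1) → ℝ) :
    ‖x - x'‖ ≤ (1 - a)⁻¹ * ‖Om (fun j => if j < N then a else 0) x -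
      Om (fun j => if j < N then a else 0) x'‖ := by
  have hu := adm_step h0 h1 N
  set u : ℕ → ℝ := fun j => if j < N then a else 0 with hudef
  have ha : 0 < 1 - a := by linarith
  have ha1 : 1 ≤ (1 - a)⁻¹ := one_le_inv₀ ha |>.2 (by linarith)
  refine anti_of_pieces (Om_inj hu) (Finset.range (N + 2)) (fun j => if j < N then
      {x | (1 / 2) ^ (j + 1) ≤ ‖x‖ ∧ ‖x‖ ≤ (1 / 2) ^ j} else if j = N then closedBall 0 ((1 / 2) ^ N)
      else {x | 1 ≤ ‖x‖}) (by positivity) (fun j _ => ?_) (fun y => ?_) (fun j _ => ?_) x x'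
  · split_ifs
    · exact (((isCompact_closedBall 0 ((1 / 2) ^ j)).of_isClosed_subset
        ((isClosed_le continuous_const continuous_norm).inter
          (isClosed_le continuous_norm continuous_const))
        fun x hx => mem_closedBall_zero_iff.2 hx.2).image (continuous_Om hu)).isClosed
    · exact ((isCompact_closedBall _ _).image (continuous_Om hu)).isClosed
    · have : Om u '' {x : Fin (k + 1) → ℝ | 1 ≤ ‖x‖} = id '' {x | 1 ≤ ‖x‖} :=
        image_congr fun x hx => Om_of_one_le u hx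
      rw [this, image_id]
      exact isClosed_le continuous_const continuous_norm
  · obtain ⟨x, rfl⟩ := Om_surj hu y
    rcases le_total 1 ‖x‖ with h | h
    · refine ⟨N + 1, by simp, x, ?_, rfl⟩
      rw [if_neg (by omega), if_neg (by omega)]; exact h
    rcases le_or_gt ‖x‖ ((1 / 2) ^ N) with h' | h'
    · refine ⟨N, by simp, x, ?_, rfl⟩
      rw [if_neg (lt_irrefl _), if_pos rfl]; exact mem_closedBall_zero_iff.2 h'
    obtain ⟨j, a1, a2⟩ := exists_shell (norm_pos_iff.1 (lt_trans (by positivity) h')) h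
    have hj : j < N := by
      by_contra hlt
      have : ((1:ℝ) / 2) ^ j ≤ (1 / 2) ^ N :=
        pow_le_pow_of_le_one (by norm_num) (by norm_num) (not_lt.1 hlt)
      linarith
    refine ⟨j, Finset.mem_range.2 (by omega), x, ?_, rfl⟩
    rw [if_pos hj]; exact ⟨a1.le, a2⟩
  · split_ifs with hj hj'
    · intro x hx x' hx'
      have b1 := scaled_mem hx.1 hx.2
      have b2 := scaled_mem hx'.1 hx'.2
      have b3 := Th_anti (hu.nonneg j) (hu.lt_tt j) b1.1 b1.2 b2.1 b2.2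
      rw [← Om_eq_Th u hx.1 hx.2, ← Om_eq_Th u hx'.1 hx'.2, ← smul_sub, norm_two_pow_smul,
        ← mul_assoc] at b3
      have e : u j = a := if_pos hj
      rw [e, tt_step hj.le] at b3
      rwa [← div_eq_inv_mul, le_div_iff₀' ha]
    · intro x hx x' hx'
      rw [Om_step a N (mem_closedBall_zero_iff.1 hx), Om_step a N (mem_closedBall_zero_iff.1 hx'),
        ← smul_sub, norm_smul, ← mul_assoc]
      have : (0:ℝ) ≤ a * (2 ^ N - 1) := mul_nonneg h0 (sub_nonneg.2 (one_le_pow₀ one_le_two))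
      refine le_mul_of_one_le_left (norm_nonneg _) (one_le_mul_of_one_le_of_one_le ha1 ?_)
      rw [Real.norm_of_nonneg (by linarith)]; linarith
    · intro x hx x' hx'
      rw [Om_of_one_le u hx, Om_of_one_le u hx']
      exact le_mul_of_one_le_left (norm_nonneg _) ha1

/-- the step map as a homeomorphism of the space -/
noncomputable def stepHomeo {a : ℝ} (h0 : 0 ≤ a) (h1 : a < 1) (N : ℕ) :
    ConHomeo (univ : Set (Fin (k + 1) → ℝ)) (univ : Set (Fin (k + 1) → ℝ)) :=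
  ofAnti (f := Om fun j => if j < N then a else 0) (continuous_Om (adm_step h0 h1 N))
    ((OmN_pl _ N).2.congr fun x _ => Om_eq_OmN_of_zero (fun _ hj => if_neg (not_lt.2 hj)) x)
    (Om_surj (adm_step h0 h1 N)) (inv_nonneg.2 (by linarith)) (Om_step_anti h0 h1 N)

theorem Om_two_point {u : ℕ → ℝ} (hu : Adm u) {N : ℕ} (hN : ∀ j, N ≤ j → u j = 0) {β : ℝ}
    (hβ : 0 < β) (hβN : β ≤ (1 / 2) ^ N) {m : ℝ} (hm : m ≤ 1) {x y : Fin n → ℝ} (hx : m ≤ ‖x‖)
    (hy : m ≤ ‖y‖) : ‖Om u x - Om u y‖ ≤ 2 / max m β * ‖x - y‖ := by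
  have h1 : ∀ j, u j ≤ 1 := fun j => (hu.anti (Nat.zero_le j)).trans hu.lt_one.le
  rcases le_or_gt m β with h | h
  · rw [Om_eq_OmN_of_zero hN, Om_eq_OmN_of_zero hN]
    refine (norm_OmN_sub hu.nonneg h1 N x y).trans (mul_le_mul_of_nonneg_right ?_ (norm_nonneg _))
    rw [max_eq_right h, le_div_iff₀ hβ]
    calc (2:ℝ) ^ N * β ≤ 2 ^ N * (1 / 2) ^ N := mul_le_mul_of_nonneg_left hβN (by positivity)
      _ = 1 := half_pow_mul N
      _ ≤ 2 := one_le_two
  · obtain ⟨j, a1, a2⟩ := exists_nat_pow_near_of_lt_one (hβ.trans h) hm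
      (by norm_num : (0:ℝ) < 1 / 2) (by norm_num)
    rw [Om_eq_OmN u (a1.le.trans hx), Om_eq_OmN u (a1.le.trans hy)]
    refine (norm_OmN_sub hu.nonneg h1 _ x y).trans (mul_le_mul_of_nonneg_right ?_ (norm_nonneg _))
    rw [max_eq_left h.le, le_div_iff₀ (hβ.trans h)]
    calc (2:ℝ) ^ (j + 1) * m ≤ 2 ^ (j + 1) * (1 / 2) ^ j :=
          mul_le_mul_of_nonneg_left a2 (by positivity)
      _ = 2 := by rw [pow_succ, mul_right_comm, half_pow_mul, one_mul]

/-- the radial chart with apex `c` as a homeomorphism of the space -/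
def RAD2 (k : ℕ) : Prop := ∀ {c : Fin (k + 1) → ℝ} {β r : ℝ}, ‖c‖ ≤ 1 / 2 → 0 < β → β ≤ 1 / 8 →
  1 / 2 ≤ r → r < 1 →
  ∃ ρ : ConHomeo (univ : Set (Fin (k + 1) → ℝ)) (univ : Set (Fin (k + 1) → ℝ)),
    (∀ y, 1 ≤ ‖y‖ → ρ.toFun y = y) ∧ (∀ y, ‖y - c‖ ≤ β → ρ.toFun y = (r / β) • (y - c)) ∧
    (∀ (m : ℝ) (y y' : Fin (k + 1) → ℝ), m ≤ 1 → m ≤ ‖y - c‖ → m ≤ ‖y' - c‖ →
      ‖ρ.toFun y - ρ.toFun y'‖ ≤ 40 / max m β * ‖y - y'‖) ∧
    ∀ y y', ‖y - y'‖ ≤ 3 / (1 - r) * ‖ρ.toFun y - ρ.toFun y'‖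

theorem rad2 (k : ℕ) : RAD2 k := by
  intro c β r hc hβ hβ' hr hr'
  obtain ⟨N, a1, a2⟩ := exists_nat_pow_near_of_lt_one hβ (by linarith : β ≤ 1)
    (by norm_num : (0:ℝ) < 1 / 2) (by norm_num)
  have hp : (0:ℝ) < 2 ^ N := by positivity
  have b1 : 1 / (4 * β) < 2 ^ N / 2 := by
    rw [div_lt_iff₀ (by positivity)]
    have := mul_lt_mul_of_pos_left a1 hp
    rw [pow_succ, ← mul_assoc, half_pow_mul] at this
    linarith
  have b2 : 2 ≤ 1 / (4 * β) := by rw [le_div_iff₀ (by positivity)]; linarith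
  have b3 : (0:ℝ) < 2 ^ N - 1 := by linarith
  obtain ⟨a, ha⟩ : ∃ a : ℝ, a = (1 / (4 * β) - 1) / (2 ^ N - 1) := ⟨_, rfl⟩
  have c0 : 0 ≤ a := ha ▸ div_nonneg (by linarith) b3.le
  have c1 : a ≤ 1 / 2 := by rw [ha, div_le_iff₀ b3]; linarith
  have c2 : a < 1 := by linarith
  have d0 : 0 ≤ (4 * r - 1) / 3 := by linarith
  have d1 : (4 * r - 1) / 3 < 1 := by linarith
  have hsurj : Function.Surjective (mv c) := fun y => by
    rcases le_total ‖y‖ 1 with h | h
    · obtain ⟨x, -, hx⟩ := (mv_image hc).ge (mem_closedBall_zero_iff.2 h)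
      exact ⟨x, hx⟩
    · exact ⟨y, by rw [mv, bump_of_one_le h, zero_smul, add_zero]⟩
  let σ := ofAnti (continuous_mv c) (conicalOn_mv c) hsurj (by norm_num) (le_norm_mv_sub hc)
  have hri : ∀ y, mv c (σ.invFun y) = y := fun y => σ.right_inv (mem_univ y)
  have hli : ∀ x, σ.invFun (mv c x) = x := fun x => σ.left_inv (mem_univ x)
  refine ⟨(σ.symm.trans (stepHomeo c0 c2 N)).trans (stepHomeo d0 d1 2), fun y hy => ?_,
    fun y hy => ?_, fun m y y' hm hy hy' => ?_, fun y y' => ?_⟩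
  · have := hli y
    rw [mv, bump_of_one_le hy, zero_smul, add_zero] at this
    change Om _ (Om _ (σ.invFun y)) = y
    rw [this, Om_of_one_le _ hy, Om_of_one_le _ hy]
  · have := hli (y - c)
    rw [mv, bump_of_le (by linarith), one_smul, sub_add_cancel] at this
    change Om _ (Om _ (σ.invFun y)) = _
    have e : 1 + a * (2 ^ N - 1) = 1 / (4 * β) := by rw [ha, div_mul_cancel₀ _ b3.ne']; ring
    rw [this, Om_step _ _ (hy.trans a2), e, Om_step, smul_smul]
    · congr 1; field_simp; ring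
    · rw [norm_smul, Real.norm_of_nonneg (by positivity)]
      calc 1 / (4 * β) * ‖y - c‖ ≤ 1 / (4 * β) * β := mul_le_mul_of_nonneg_left hy (by positivity)
        _ = (1 / 2) ^ 2 := by field_simp; norm_num
  · have hv := adm_step d0 d1 2
    have hlow : ∀ y, m ≤ ‖y - c‖ → 3 / 5 * m ≤ ‖σ.invFun y‖ := fun y hy => by
      have := norm_mv_sub_le hc (σ.invFun y) 0
      rw [hri y, sub_zero, mv, bump_of_le (by simp), one_smul, zero_add] at this
      linarith
    have e1 := le_norm_mv_sub hc (σ.invFun y) (σ.invFun y')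
    rw [hri, hri] at e1
    have e2 := Om_two_point (adm_step c0 c2 N) (fun _ hj => if_neg (not_lt.2 hj)) hβ a2
      (by linarith : 3 / 5 * m ≤ 1) (hlow y hy) (hlow y' hy')
    change ‖Om _ (Om _ (σ.invFun y)) - Om _ (Om _ (σ.invFun y'))‖ ≤ _
    rw [Om_eq_OmN_of_zero (N := 2) fun _ hj => if_neg (not_lt.2 hj),
      Om_eq_OmN_of_zero (N := 2) (u := fun j => if j < 2 then (4 * r - 1) / 3 else 0)
        fun _ hj => if_neg (not_lt.2 hj)]
    refine (norm_OmN_sub hv.nonneg (fun j => (hv.anti (Nat.zero_le j)).trans hv.lt_one.le) 2 _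
      _).trans ?_
    have hm0 : 0 < max m β := lt_max_of_lt_right hβ
    have e3 : 2 / max (3 / 5 * m) β ≤ 10 / 3 / max m β := by
      rw [div_le_div_iff₀ (lt_max_of_lt_right hβ) hm0]
      have : max m β ≤ 5 / 3 * max (3 / 5 * m) β :=
        max_le (by linarith [le_max_left (3 / 5 * m) β]) (by linarith [le_max_right (3 / 5 * m) β])
      linarith
    calc _ ≤ 2 ^ 2 * (10 / 3 / max m β * (3 * ‖y - y'‖)) := by
          refine mul_le_mul_of_nonneg_left (e2.trans ?_) (by norm_num)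
          exact mul_le_mul e3 e1 (norm_nonneg _) (by positivity)
      _ = _ := by ring
  · have e1 := norm_mv_sub_le hc (σ.invFun y) (σ.invFun y')
    rw [hri, hri] at e1
    have e2 := Om_step_anti c0 c2 N (σ.invFun y) (σ.invFun y')
    have e3 := Om_step_anti d0 d1 2 (Om (fun j => if j < N then a else 0) (σ.invFun y))
      (Om (fun j => if j < N then a else 0) (σ.invFun y'))
    change _ ≤ _ * ‖Om _ (Om _ (σ.invFun y)) - Om _ (Om _ (σ.invFun y'))‖
    have e4 : (1 - a)⁻¹ ≤ 2 := by rw [inv_le_comm₀ (by linarith) two_pos]; linarith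
    have e5 : (1 - (4 * r - 1) / 3)⁻¹ = 3 / 4 / (1 - r) := by
      have : 1 - r ≠ 0 := by linarith
      rw [show 1 - (4 * r - 1) / 3 = 4 / 3 * (1 - r) by ring]
      field_simp
    rw [e5] at e3
    have hr0 : 0 < 1 - r := by linarith
    refine e1.trans ((mul_le_mul_of_nonneg_left (e2.trans (mul_le_mul e4 e3 (norm_nonneg _)
      zero_le_two)) (by norm_num)).trans ?_)
    rw [← mul_assoc, ← mul_assoc]
    refine mul_le_mul_of_nonneg_right ?_ (norm_nonneg _)
    rw [← mul_div_assoc]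
    exact div_le_div_of_nonneg_right (by norm_num) hr0.le

end P073.An2
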