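import Vale.Agent.P073Z.Cone

/-!
# The PL radial chart of the cube with a moving apex
-/

open Set Metric Topology Filter MeasureTheory
open scoped ENNReal NNReal

namespace P073.An2

open P073 P073.Cone

/-- chain rule for the pointwise Lipschitz constant -/
theorem lipAt_comp_le_mul {S S' T : Type} [MetricSpace S] [MetricSpace S'] [PseudoEMetricSpace T]
    {f : S → S'} {g : S' → T} {X : Set S} {Y : Set S'} {x : S} {K : ℝ≥0∞} (hK0 : K ≠ 0)
    (hK : K ≠ ⊤) (hg : lipAt g Y (f x) ≤ K) (hf : ContinuousWithinAt f X x) (hm : MapsTo f X Y) :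
    lipAt (g ∘ f) X x ≤ K * lipAt f X x := by
  rw [← add_zero (K * lipAt f X x)]
  refine le_of_forall_gt_aff hK0 hK fun c hc => ?_
  by_cases hct : c = ⊤
  · rw [hct, ENNReal.mul_top hK0, top_add]; exact le_top
  rw [mul_comm]
  refine le_of_forall_gt_aff (bot_le.trans_lt hc).ne' hct fun c' hc' => lipAt_le ?_
  filter_upwards [(hf.tendsto_nhdsWithin hm).eventually (ev_of_lipAt_lt (hg.trans_lt hc')),
    ev_of_lipAt_lt hc] with y h1 h2
  rw [add_zero, mul_comm c, mul_assoc]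
  exact h1.trans (mul_le_mul_right h2 _)

variable {n k : ℕ}

theorem norm_OmN_sub {u : ℕ → ℝ} (h0 : ∀ j, 0 ≤ u j) (h1 : ∀ j, u j ≤ 1) (m : ℕ)
    (x y : Fin n → ℝ) : ‖OmN u m x - OmN u m y‖ ≤ 2 ^ m * ‖x - y‖ := by
  induction m with
  | zero => simp [OmN]
  | succ m ih =>
    have e : OmN u (m + 1) x - OmN u (m + 1) y = (OmN u m x - OmN u m y) +
        u m • (cc ((2:ℝ) ^ m • x) - cc ((2:ℝ) ^ m • y)) := by
      simp only [OmN, Finset.sum_range_succ, smul_sub]; abel
    have b : ‖u m • (cc ((2:ℝ) ^ m • x) - cc ((2:ℝ) ^ m • y))‖ ≤ 2 ^ m * ‖x - y‖ := by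
      rw [norm_smul, Real.norm_of_nonneg (h0 m)]
      refine (mul_le_of_le_one_left (norm_nonneg _) (h1 m)).trans ((norm_cc_sub _ _).trans ?_)
      rw [← smul_sub, norm_two_pow_smul]
    rw [e, pow_succ]
    linarith [norm_add_le (OmN u m x - OmN u m y) (u m • (cc ((2:ℝ) ^ m • x) - cc ((2:ℝ) ^ m • y)))]

theorem lipschitz_OmN {u : ℕ → ℝ} (h0 : ∀ j, 0 ≤ u j) (h1 : ∀ j, u j ≤ 1) (m : ℕ) :
    LipschitzWith (2 ^ m) (OmN u m : (Fin n → ℝ) → Fin n → ℝ) := by
  refine LipschitzWith.of_dist_le_mul fun x y => ?_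
  rw [dist_eq_norm, dist_eq_norm]
  exact_mod_cast norm_OmN_sub h0 h1 m x y

theorem adm_step {a : ℝ} (h0 : 0 ≤ a) (h1 : a < 1) (N : ℕ) :
    Adm fun j => if j < N then a else 0 := by
  refine ⟨fun j => ?_, fun i j hij => ?_, ?_, ?_⟩
  · split_ifs <;> linarith
  · split_ifs with h1 h2 h2
    · exact le_rfl
    · omega
    · linarith
    · exact le_rfl
  · split_ifs <;> linarith
  · refine tendsto_const_nhds.congr' ?_
    filter_upwards [eventually_ge_atTop N] with j hj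
    rw [if_neg (not_lt.2 hj)]

theorem Om_step (a : ℝ) (N : ℕ) {x : Fin n → ℝ} (hx : ‖x‖ ≤ (1 / 2) ^ N) :
    Om (fun j => if j < N then a else 0) x = (1 + a * (2 ^ N - 1)) • x := by
  rw [Om_eq_OmN_of_zero (N := N) fun j hj => if_neg (not_lt.2 hj)]
  unfold OmN
  have e : ∑ j ∈ Finset.range N, (if j < N then a else 0) • cc ((2:ℝ) ^ j • x) =
      ∑ j ∈ Finset.range N, (a * 2 ^ j) • x := by
    refine Finset.sum_congr rfl fun j hj => ?_
    have hj' : j + 1 ≤ N := Finset.mem_range.1 hj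
    rw [if_pos (Finset.mem_range.1 hj), cc_of_le_half, smul_smul]
    rw [norm_two_pow_smul]
    have h3 : ‖x‖ ≤ (1 / 2) ^ (j + 1) :=
      hx.trans (pow_le_pow_of_le_one (by norm_num) (by norm_num) hj')
    calc 2 ^ j * ‖x‖ ≤ 2 ^ j * (1 / 2) ^ (j + 1) := mul_le_mul_of_nonneg_left h3 (by positivity)
      _ = 1 / 2 := by rw [pow_succ, ← mul_assoc, half_pow_mul, one_mul]
  rw [e, ← Finset.sum_smul, ← Finset.mul_sum, geom_sum_eq (by norm_num), add_smul, one_smul]
  norm_num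

/-- the radial map attached to a finitely supported sequence, as a PL homeomorphism -/
noncomputable def omHomeo {u : ℕ → ℝ} (hu : Adm u) {N : ℕ} (hN : ∀ j, N ≤ j → u j = 0) :
    ConHomeo (closedBall (0 : Fin (k + 1) → ℝ) 1) (closedBall (0 : Fin (k + 1) → ℝ) 1) :=
  ConHomeo.ofCompact (isCompact_closedBall 0 1) (Om u) (continuous_Om hu).continuousOn
    (Om_injOn hu) (((OmN_pl u N).2.mono (locCone_closedBall_pi _ _).conicalSet
      (subset_univ _)).congr fun x _ => Om_eq_OmN_of_zero hN x) (Om_image hu)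

theorem omHomeo_toFun {u : ℕ → ℝ} (hu : Adm u) {N : ℕ} (hN : ∀ j, N ≤ j → u j = 0) :
    (omHomeo (k := k) hu hN).toFun = Om u := ConHomeo.ofCompact_toFun _ _ _ _ _ _

theorem lipAt_Om_le {u : ℕ → ℝ} (hu : Adm u) {N : ℕ} (hN : ∀ j, N ≤ j → u j = 0)
    {β : ℝ} (hβ : 0 < β) (hβN : β ≤ (1 / 2) ^ N) (X : Set (Fin n → ℝ)) {x : Fin n → ℝ}
    (hx : ‖x‖ ≤ 1) : lipAt (Om u) X x ≤ ENNReal.ofReal (2 / max ‖x‖ β) := by
  have h1 : ∀ j, u j ≤ 1 := fun j => (hu.anti (Nat.zero_le j)).trans hu.lt_one.le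
  have key : ∀ m : ℕ, (∀ᶠ y in 𝓝 x, Om u y = OmN u m y) → (2:ℝ) ^ m ≤ 2 / max ‖x‖ β →
      lipAt (Om u) X x ≤ ENNReal.ofReal (2 / max ‖x‖ β) := by
    intro m hev hm
    refine lipAt_le ?_
    filter_upwards [mem_nhdsWithin_of_mem_nhds hev] with y hy
    rw [hy, hev.self_of_nhds]
    refine (lipschitz_OmN hu.nonneg h1 m y x).trans (mul_le_mul_left ?_ _)
    rw [← ENNReal.ofReal_coe_nnreal]
    exact ENNReal.ofReal_le_ofReal (by exact_mod_cast hm)
  rcases le_or_gt ‖x‖ β with h | h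
  · refine key N (Eventually.of_forall fun y => Om_eq_OmN_of_zero hN y) ?_
    rw [max_eq_right h, le_div_iff₀ hβ]
    calc (2:ℝ) ^ N * β ≤ 2 ^ N * (1 / 2) ^ N := mul_le_mul_of_nonneg_left hβN (by positivity)
      _ = 1 := half_pow_mul N
      _ ≤ 2 := one_le_two
  · obtain ⟨j, a1, a2⟩ := exists_shell (norm_pos_iff.1 (hβ.trans h)) hx
    refine key (j + 1) ?_ ?_
    · filter_upwards [continuous_norm.continuousAt.eventually (lt_mem_nhds a1)] with y hy
      exact Om_eq_OmN u hy.le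
    · rw [max_eq_left h.le, le_div_iff₀ (hβ.trans h)]
      calc (2:ℝ) ^ (j + 1) * ‖x‖ ≤ 2 ^ (j + 1) * (1 / 2) ^ j :=
            mul_le_mul_of_nonneg_left a2 (by positivity)
        _ = 2 := by rw [pow_succ, mul_right_comm, half_pow_mul, one_mul]

/-- the centred chart -/
theorem centred {β r : ℝ} (hβ : 0 < β) (hβ' : β ≤ 1 / 4) (hr : 1 / 2 ≤ r) (hr' : r < 1) :
    ∃ ρ : ConHomeo (closedBall (0 : Fin (k + 1) → ℝ) 1) (closedBall (0 : Fin (k + 1) → ℝ) 1),
      EqOn ρ.toFun id (sphere 0 1) ∧ (∀ x, ‖x‖ ≤ β → ρ.toFun x = (r / β) • x) ∧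
      ∀ x ∈ closedBall (0 : Fin (k + 1) → ℝ) 1,
        lipAt ρ.toFun (closedBall 0 1) x ≤ ENNReal.ofReal (4 / max ‖x‖ β) := by
  obtain ⟨N, a1, a2⟩ := exists_nat_pow_near_of_lt_one hβ (by linarith : β ≤ 1)
    (by norm_num : (0:ℝ) < 1 / 2) (by norm_num)
  have hp : (0:ℝ) < 2 ^ N := by positivity
  have b1 : 1 / (2 * β) < 2 ^ N := by
    rw [div_lt_iff₀ (by positivity)]
    have := mul_lt_mul_of_pos_left a1 hp
    rw [pow_succ, ← mul_assoc, half_pow_mul] at this
    linarith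
  have b2 : 2 ≤ 1 / (2 * β) := by rw [le_div_iff₀ (by positivity)]; linarith
  have b3 : (0:ℝ) < 2 ^ N - 1 := by linarith
  have hu := adm_step (a := (1 / (2 * β) - 1) / (2 ^ N - 1)) (div_nonneg (by linarith) b3.le)
    (by rw [div_lt_one b3]; linarith) N
  have hv := adm_step (a := 2 * r - 1) (by linarith) (by linarith) 1
  have hN : ∀ j, N ≤ j → (fun j => if j < N then (1 / (2 * β) - 1) / (2 ^ N - 1) else 0) j = 0 :=
    fun j hj => if_neg (not_lt.2 hj)
  have hN' : ∀ j, 1 ≤ j → (fun j => if j < 1 then 2 * r - 1 else 0) j = 0 :=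
    fun j hj => if_neg (not_lt.2 hj)
  refine ⟨(omHomeo hu hN).trans (omHomeo hv hN'), fun x hx => ?_, fun x hx => ?_, fun x hx => ?_⟩
  · have h1 : 1 ≤ ‖x‖ := (mem_sphere_zero_iff_norm.1 hx).ge
    simp only [ConHomeo.trans_toFun, omHomeo_toFun, Function.comp, Om_of_one_le _ h1, id]
  · simp only [ConHomeo.trans_toFun, omHomeo_toFun, Function.comp]
    have e : 1 + (1 / (2 * β) - 1) / (2 ^ N - 1) * (2 ^ N - 1) = 1 / (2 * β) := by
      rw [div_mul_cancel₀ _ b3.ne']; ring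
    rw [Om_step _ _ (hx.trans a2), e, Om_step, smul_smul]
    · congr 1; field_simp; ring
    · rw [norm_smul, Real.norm_of_nonneg (by positivity), pow_one]
      calc 1 / (2 * β) * ‖x‖ ≤ 1 / (2 * β) * β := mul_le_mul_of_nonneg_left hx (by positivity)
        _ = 1 / 2 := by field_simp
  · simp only [ConHomeo.trans_toFun, omHomeo_toFun]
    have h2 : ∀ y : Fin (k + 1) → ℝ, lipAt (Om fun j => if j < 1 then 2 * r - 1 else 0)
        (closedBall 0 1) y ≤ 2 := by
      intro y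
      refine lipAt_le (Eventually.of_forall fun z => ?_)
      rw [Om_eq_OmN_of_zero hN', Om_eq_OmN_of_zero hN']
      have := lipschitz_OmN (n := k + 1) hv.nonneg
        (fun j => (hv.anti (Nat.zero_le j)).trans hv.lt_one.le) 1 z y
      simpa using this
    refine (lipAt_comp_le_mul two_ne_zero ENNReal.ofNat_ne_top (h2 _)
      (continuous_Om hu).continuousWithinAt (Om_mapsTo hu)).trans ?_
    refine (mul_le_mul_right (lipAt_Om_le hu hN hβ a2 _ (mem_closedBall_zero_iff.1 hx)) _).trans ?_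
    rw [← ENNReal.ofReal_ofNat 2, ← ENNReal.ofReal_mul (by norm_num)]
    exact ENNReal.ofReal_le_ofReal (le_of_eq (by ring))

/-- the cut off function of the map which moves the apex -/
noncomputable def bump (x : Fin n → ℝ) : ℝ := max 0 (min 1 (4 / 3 * (1 - ‖x‖)))

theorem bump_nonneg (x : Fin n → ℝ) : 0 ≤ bump x := le_max_left _ _

theorem bump_le_one (x : Fin n → ℝ) : bump x ≤ 1 := max_le zero_le_one (min_le_left _ _)

theorem bump_of_one_le {x : Fin n → ℝ} (h : 1 ≤ ‖x‖) : bump x = 0 :=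
  max_eq_left ((min_le_right _ _).trans (by linarith))

theorem bump_of_le {x : Fin n → ℝ} (h : ‖x‖ ≤ 1 / 4) : bump x = 1 := by
  unfold bump
  rw [min_eq_left (by linarith), max_eq_right zero_le_one]

theorem bump_le {x : Fin n → ℝ} (h : ‖x‖ ≤ 1) : bump x ≤ 4 / 3 * (1 - ‖x‖) :=
  max_le (by linarith) (min_le_right _ _)

theorem abs_bump_sub (x y : Fin n → ℝ) : |bump x - bump y| ≤ 4 / 3 * ‖x - y‖ := by
  refine (abs_max_sub_max_le_max _ _ _ _).trans (max_le (by simp) ?_)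
  refine (abs_min_sub_min_le_max _ _ _ _).trans (max_le (by simp) ?_)
  rw [show 4 / 3 * (1 - ‖x‖) - 4 / 3 * (1 - ‖y‖) = 4 / 3 * (‖y‖ - ‖x‖) by ring, abs_mul,
    abs_of_pos (by norm_num : (0:ℝ) < 4 / 3), abs_sub_comm]
  exact mul_le_mul_of_nonneg_left (abs_norm_sub_norm_le x y) (by norm_num)

theorem continuous_bump : Continuous (bump : (Fin n → ℝ) → ℝ) := by
  unfold bump; fun_prop

theorem conicalOn_bump : ConicalOn (bump : (Fin n → ℝ) → ℝ) univ := by
  have hu : ConicalSet (univ : Set (Fin n → ℝ)) := IsOpen.conicalSet isOpen_univ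
  have h0 : ConicalOn (fun x : Fin n → ℝ => (4 / 3 : ℝ) • (1 - ‖x‖)) univ :=
    ConicalOn.const_smul _ ((conicalOn_const 1 hu).sub conicalOn_norm)
  exact (conicalOn_const 0 hu).rmax ((conicalOn_const 1 hu).rmin h0 (by fun_prop) (by fun_prop))
    (by fun_prop) (by fun_prop)

/-- the map which moves the apex -/
noncomputable def mv (c x : Fin n → ℝ) : Fin n → ℝ := x + bump x • c

theorem norm_mv_sub_sub {c : Fin n → ℝ} (hc : ‖c‖ ≤ 1 / 2) (x y : Fin n → ℝ) :
    ‖(mv c x - mv c y) - (x - y)‖ ≤ 2 / 3 * ‖x - y‖ := by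
  have e : (mv c x - mv c y) - (x - y) = (bump x - bump y) • c := by
    simp only [mv, sub_smul]; abel
  rw [e, norm_smul, Real.norm_eq_abs]
  calc _ ≤ 4 / 3 * ‖x - y‖ * (1 / 2) :=
        mul_le_mul (abs_bump_sub x y) hc (norm_nonneg _) (by positivity)
    _ = _ := by ring

theorem le_norm_mv_sub {c : Fin n → ℝ} (hc : ‖c‖ ≤ 1 / 2) (x y : Fin n → ℝ) :
    ‖x - y‖ ≤ 3 * ‖mv c x - mv c y‖ := by
  have h1 := norm_mv_sub_sub hc x y
  have h2 := norm_sub_norm_le (x - y) (mv c x - mv c y)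
  rw [norm_sub_rev] at h1
  linarith

theorem norm_mv_sub_le {c : Fin n → ℝ} (hc : ‖c‖ ≤ 1 / 2) (x y : Fin n → ℝ) :
    ‖mv c x - mv c y‖ ≤ 5 / 3 * ‖x - y‖ := by
  have h1 := norm_mv_sub_sub hc x y
  have h2 := norm_sub_norm_le (mv c x - mv c y) (x - y)
  linarith

theorem continuous_mv (c : Fin n → ℝ) : Continuous (mv c) :=
  continuous_id.add (continuous_bump.smul continuous_const)

theorem conicalOn_mv (c : Fin n → ℝ) : ConicalOn (mv c) univ := by
  have hu : ConicalSet (univ : Set (Fin n → ℝ)) := IsOpen.conicalSet isOpen_univ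
  refine (conicalOn_id hu).add fun x hx => conicalWithinAt_pi (hu x hx) fun m => ?_
  have : (fun y : Fin n → ℝ => (bump y • c) m) = fun y => c m • bump y := by
    funext y; simp [mul_comm]
  rw [this]
  exact ConicalOn.const_smul _ conicalOn_bump x hx

theorem mv_image {c : Fin n → ℝ} (hc : ‖c‖ ≤ 1 / 2) :
    mv c '' closedBall 0 1 = closedBall 0 1 := by
  apply Subset.antisymm
  · rintro _ ⟨x, hx, rfl⟩
    rw [mem_closedBall_zero_iff] at hx ⊢
    refine (norm_add_le _ _).trans ?_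
    rw [norm_smul, Real.norm_of_nonneg (bump_nonneg x)]
    have := mul_le_mul (bump_le hx) hc (norm_nonneg _) (by linarith)
    linarith
  · intro y hy
    have hcont : Continuous fun t : ℝ => t - bump (y - t • c) :=
      continuous_id.sub (continuous_bump.comp (by fun_prop))
    obtain ⟨t, -, ht⟩ : (0:ℝ) ∈ (fun t : ℝ => t - bump (y - t • c)) '' Icc 0 1 :=
      intermediate_value_Icc zero_le_one hcont.continuousOn
        ⟨by simpa using bump_nonneg y, sub_nonneg.2 (bump_le_one _)⟩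
    have ht' : bump (y - t • c) = t := (sub_eq_zero.1 ht).symm
    refine ⟨y - t • c, ?_, by rw [mv, ht', sub_add_cancel]⟩
    rw [mem_closedBall_zero_iff] at hy ⊢
    by_contra hlt
    have h0 := bump_of_one_le (not_le.1 hlt).le
    rw [ht'] at h0
    rw [h0, zero_smul, sub_zero] at hlt
    exact hlt hy

/-- the PL radial chart of the cube with apex `c` -/
def RAD (k : ℕ) : Prop := ∀ {c : Fin (k + 1) → ℝ} {β r : ℝ}, ‖c‖ ≤ 1 / 2 → 0 < β → β ≤ 1 / 4 →
  1 / 2 ≤ r → r < 1 →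
  ∃ ρ : ConHomeo (closedBall (0 : Fin (k + 1) → ℝ) 1) (closedBall (0 : Fin (k + 1) → ℝ) 1),
    EqOn ρ.toFun id (sphere 0 1) ∧ (∀ y ∈ closedBall c β, ρ.toFun y = (r / β) • (y - c)) ∧
    ρ.toFun '' closedBall c β = closedBall 0 r ∧ ρ.toFun '' ball c β = ball 0 r ∧
    (∀ y ∈ closedBall (0 : Fin (k + 1) → ℝ) 1, β ≤ ‖y - c‖ → r ≤ ‖ρ.toFun y‖) ∧
    ∀ y ∈ closedBall (0 : Fin (k + 1) → ℝ) 1,
      lipAt ρ.toFun (closedBall 0 1) y ≤ ENNReal.ofReal (20 / max ‖y - c‖ β)

theorem rad (k : ℕ) : RAD k := by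
  intro c β r hc hβ hβ' hr hr'
  obtain ⟨ρ, h1, h2, h3⟩ := centred (k := k) hβ hβ' hr hr'
  let σ : ConHomeo (closedBall (0 : Fin (k + 1) → ℝ) 1) (closedBall (0 : Fin (k + 1) → ℝ) 1) :=
    ConHomeo.ofCompact (isCompact_closedBall 0 1) (mv c) (continuous_mv c).continuousOn
      (fun x _ y _ h => by
        have := le_norm_mv_sub hc x y
        rw [h, sub_self, norm_zero, mul_zero] at this
        exact sub_eq_zero.1 (norm_le_zero_iff.1 this))
      ((conicalOn_mv c).mono (locCone_closedBall_pi _ _).conicalSet (subset_univ _)) (mv_image hc)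
  have hσ : σ.toFun = mv c := ConHomeo.ofCompact_toFun _ _ _ _ _ _
  have hri : ∀ y ∈ closedBall (0 : Fin (k + 1) → ℝ) 1, mv c (σ.invFun y) = y := fun y hy => by
    rw [← hσ]; exact σ.right_inv hy
  have hli : ∀ x ∈ closedBall (0 : Fin (k + 1) → ℝ) 1, σ.invFun (mv c x) = x := fun x hx => by
    rw [← hσ]; exact σ.left_inv hx
  have hr0 : 0 < r / β := div_pos (by linarith) hβ
  have hform : ∀ y ∈ closedBall c β, (σ.symm.trans ρ).toFun y = (r / β) • (y - c) := by
    intro y hy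
    rw [mem_closedBall_iff_norm] at hy
    have e : mv c (y - c) = y := by rw [mv, bump_of_le (hy.trans hβ'), one_smul, sub_add_cancel]
    have := hli (y - c) (mem_closedBall_zero_iff.2 (by linarith))
    rw [e] at this
    simp only [ConHomeo.trans_toFun, ConHomeo.symm_toFun, Function.comp, this]
    exact h2 _ hy
  have hnorm : ∀ y : Fin (k + 1) → ℝ, ‖(r / β) • (y - c)‖ = r / β * ‖y - c‖ := fun y => by
    rw [norm_smul, Real.norm_of_nonneg hr0.le]
  have hinv : ∀ z : Fin (k + 1) → ℝ, (r / β) • (c + (r / β)⁻¹ • z - c) = z := fun z => by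
    rw [add_sub_cancel_left, smul_inv_smul₀ hr0.ne']
  have hrβ : r / β * β = r := div_mul_cancel₀ _ hβ.ne'
  have hball : (σ.symm.trans ρ).toFun '' ball c β = ball 0 r := by
    apply Subset.antisymm
    · rintro _ ⟨y, hy, rfl⟩
      rw [hform y (ball_subset_closedBall hy), mem_ball_zero_iff, hnorm]
      exact (mul_lt_mul_of_pos_left (mem_ball_iff_norm.1 hy) hr0).trans_eq hrβ
    · intro z hz
      have hy : c + (r / β)⁻¹ • z ∈ ball c β := by
        rw [mem_ball_iff_norm, ← mul_lt_mul_iff_right₀ hr0, ← hnorm, hinv, hrβ]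
        exact mem_ball_zero_iff.1 hz
      exact ⟨_, hy, by rw [hform _ (ball_subset_closedBall hy), hinv]⟩
  have hsub : ball c β ⊆ closedBall 0 1 := fun y hy => by
    rw [mem_ball_iff_norm] at hy
    rw [mem_closedBall_zero_iff]
    linarith [norm_sub_norm_le y c]
  refine ⟨σ.symm.trans ρ, fun y hy => ?_, hform, ?_, hball, fun y hy hyc => ?_, fun y hy => ?_⟩
  · have e : mv c y = y := by
      rw [mv, bump_of_one_le (mem_sphere_zero_iff_norm.1 hy).ge, zero_smul, add_zero]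
    have := hli y (sphere_subset_closedBall hy)
    rw [e] at this
    simp only [ConHomeo.trans_toFun, ConHomeo.symm_toFun, Function.comp, this]
    exact h1 hy
  · apply Subset.antisymm
    · rintro _ ⟨y, hy, rfl⟩
      rw [hform y hy, mem_closedBall_zero_iff, hnorm]
      exact (mul_le_mul_of_nonneg_left (mem_closedBall_iff_norm.1 hy) hr0.le).trans_eq hrβ
    · intro z hz
      have hy : c + (r / β)⁻¹ • z ∈ closedBall c β := by
        rw [mem_closedBall_iff_norm, ← mul_le_mul_iff_right₀ hr0, ← hnorm, hinv, hrβ]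
        exact mem_closedBall_zero_iff.1 hz
      exact ⟨_, hy, by rw [hform _ hy, hinv]⟩
  · by_contra hlt
    have : (σ.symm.trans ρ).toFun y ∈ ball (0 : Fin (k + 1) → ℝ) r :=
      mem_ball_zero_iff.2 (not_le.1 hlt)
    rw [← hball] at this
    obtain ⟨z, hz, hzy⟩ := this
    rw [(σ.symm.trans ρ).injOn (hsub hz) hy hzy, mem_ball_iff_norm] at hz
    linarith
  · have hlip : LipschitzOnWith 3 σ.invFun (closedBall 0 1) := by
      refine LipschitzOnWith.of_dist_le_mul fun a ha b hb => ?_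
      have := le_norm_mv_sub hc (σ.invFun a) (σ.invFun b)
      rw [hri a ha, hri b hb] at this
      rw [dist_eq_norm, dist_eq_norm]
      exact_mod_cast this
    have hm : 0 < max ‖σ.invFun y‖ β := lt_max_of_lt_right hβ
    have hcmp : max ‖y - c‖ β ≤ 5 / 3 * max ‖σ.invFun y‖ β := by
      refine max_le ?_ (by linarith [le_max_right ‖σ.invFun y‖ β])
      have := norm_mv_sub_le hc (σ.invFun y) 0
      rw [hri y hy, sub_zero, mv, bump_of_le (by simp), one_smul, zero_add] at this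
      linarith [le_max_left ‖σ.invFun y‖ β]
    simp only [ConHomeo.trans_toFun, ConHomeo.symm_toFun]
    refine (lipAt_comp_le_mul (ENNReal.ofReal_pos.2 (by positivity)).ne' ENNReal.ofReal_ne_top
      (h3 _ (σ.mapsTo_inv hy)) (σ.cont_inv y hy) σ.mapsTo_inv).trans ?_
    refine (mul_le_mul_right (lipAt_le_of_lip hlip hy) _).trans ?_
    rw [← ENNReal.ofReal_coe_nnreal, ← ENNReal.ofReal_mul (by positivity)]
    refine ENNReal.ofReal_le_ofReal ?_
    rw [div_mul_eq_mul_div, div_le_div_iff₀ hm (lt_max_of_lt_right hβ)]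
    push_cast
    linarith

end P073.An2
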